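import Vale.Agent.P273.H948.Glue

/-!
Surgery: replace the open subset `N` of a nodal surface by a proper modification `ρ : N' → N` which
is biholomorphic outside the closed set `Z ⊆ N`.
-/

noncomputable section

open Set Filter Topology

namespace Vale.Agent.P273.H948

variable {m : ℕ}

/-- A proper modification of an open neighbourhood `N` of the closed subset `Z` of `S`. -/
structure Modif (S N' : Surf m) where
  /-- the centre -/
  Z : Set S.X
  /-- the neighbourhood -/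
  N : Set S.X
  /-- the modification -/
  ρ : N'.X → S.X
  closed : IsClosed Z
  opn : IsOpen N
  sub : Z ⊆ N
  cont : Continuous ρ
  maps : ∀ y, ρ y ∈ N
  hπ : ∀ y, S.π (ρ y) = N'.π y
  hpull : ∀ y g, S.hol (ρ y) g → N'.hol y (g ∘ ρ)
  /-- `ρ` is proper over `N` -/
  proper : ∀ (𝒱 : Ultrafilter N'.X) (x : S.X), x ∈ N → map ρ 𝒱 ≤ 𝓝 x →
    ∃ y, (𝒱 : Filter N'.X) ≤ 𝓝 y
  inj : InjOn ρ (ρ ⁻¹' Zᶜ)
  surj : ∀ x ∈ N, x ∉ Z → ∃ y, ρ y = x
  /-- `ρ` is locally biholomorphic outside `Z` -/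
  nhds : ∀ y, ρ y ∉ Z → 𝓝 (ρ y) ≤ map ρ (𝓝 y)
  hhol : ∀ y, ρ y ∉ Z → ∀ g : N'.X → ℂ, N'.hol y g → ∃ g', S.hol (ρ y) g' ∧ g =ᶠ[𝓝 y] g' ∘ ρ

namespace Modif

variable {S N' : Surf m} (M : Modif S N')

/-- The part of `S` outside the centre. -/
def A : Surf m := S.restrict M.Zᶜ M.closed.isOpen_compl

theorem map_nhds {y : N'.X} (h : M.ρ y ∉ M.Z) : map M.ρ (𝓝 y) = 𝓝 (M.ρ y) :=
  le_antisymm M.cont.continuousAt (M.nhds y h)

theorem opn' : IsOpen (M.ρ ⁻¹' M.Zᶜ) := M.closed.isOpen_compl.preimage M.cont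

/-- The map to the complement of the centre. -/
def j (y : {y : N'.X // M.ρ y ∈ M.Zᶜ}) : M.A.X := Surf.toSub _ (M.ρ y.1) y.2

/-- The inclusion of the complement of the centre. -/
def incA : M.A.X → S.X := Surf.inc

theorem incA_emb : IsOpenEmbedding M.incA := Surf.inc_emb

theorem incA_not_mem (a : M.A.X) : M.incA a ∉ M.Z := Surf.inc_mem a

theorem incA_j (y : {y : N'.X // M.ρ y ∈ M.Zᶜ}) : M.incA (M.j y) = M.ρ y.1 := rfl

theorem holA' (a : M.A.X) (g : M.A.X → ℂ) :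
    M.A.hol a g ↔ ∃ g', S.hol (M.incA a) g' ∧ g =ᶠ[𝓝 a] g' ∘ M.incA := Iff.rfl

theorem map_j (o : {y : N'.X // M.ρ y ∈ M.Zᶜ}) : map M.j (𝓝 o) = 𝓝 (M.j o) := by
  have h0 : IsOpenEmbedding (Subtype.val : {y : N'.X // M.ρ y ∈ M.Zᶜ} → N'.X) :=
    M.opn'.isOpenEmbedding_subtypeVal
  refine Filter.map_injective M.incA_emb.injective ?_
  have h2 : M.incA ∘ M.j = M.ρ ∘ Subtype.val := rfl
  rw [Filter.map_map, h2, ← Filter.map_map, h0.map_nhds_eq, M.incA_emb.map_nhds_eq,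
    M.map_nhds o.2, M.incA_j]

theorem emb_j : IsOpenEmbedding M.j := by
  refine .of_continuous_injective_isOpenMap ?_ ?_ ?_
  · exact Surf.cont_toSub (M.cont.comp continuous_subtype_val) _
  · intro a b h
    exact Subtype.ext (M.inj a.2 b.2 (congrArg M.incA h))
  · rw [isOpenMap_iff_nhds_le]
    intro o
    rw [M.map_j]

/-- The gluing data. -/
def D : GlueData M.A N' where
  O := {y : N'.X // M.ρ y ∈ M.Zᶜ}
  j₁ := M.j
  j₂ := Subtype.val
  e₁ := M.emb_j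
  e₂ := M.opn'.isOpenEmbedding_subtypeVal
  hπ o := (M.hπ o.1).symm
  hhol o g₁ g₂ e := by
    have h0 : IsOpenEmbedding (Subtype.val : {y : N'.X // M.ρ y ∈ M.Zᶜ} → N'.X) :=
      M.opn'.isOpenEmbedding_subtypeVal
    constructor
    · rw [M.holA']
      rintro ⟨g', hg', e'⟩
      refine N'.hol_congr (M.hpull _ _ hg') ?_
      rw [← h0.map_nhds_eq]
      rw [← M.map_j] at e'
      refine Filter.eventually_map.2 ?_
      filter_upwards [e, Filter.eventually_map.1 e'] with a h1 h2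
      exact h1.symm.trans h2
    · intro h
      obtain ⟨g', hg', e'⟩ := M.hhol _ o.2 _ h
      rw [M.holA']
      refine ⟨g', hg', ?_⟩
      rw [← M.map_j]
      rw [← h0.map_nhds_eq] at e'
      refine Filter.eventually_map.2 ?_
      filter_upwards [e, Filter.eventually_map.1 e'] with a h1 h2
      change g₁ (M.j a) = g' (M.ρ a.1)
      exact h1.trans h2
  closed := by
    have : {p : M.A.X × N'.X | ∃ o : {y : N'.X // M.ρ y ∈ M.Zᶜ}, M.j o = p.1 ∧ o.1 = p.2} =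
        {p : M.A.X × N'.X | M.ρ p.2 = M.incA p.1} := by
      ext ⟨a, c⟩
      constructor
      · rintro ⟨o, h1, h2⟩
        simp only at h1 h2
        subst h1 h2
        rfl
      · intro h
        have h' : M.ρ c = M.incA a := h
        exact ⟨⟨c, by rw [h']; exact M.incA_not_mem a⟩, M.incA_emb.injective h', rfl⟩
    rw [this]
    exact isClosed_eq (M.cont.comp continuous_snd) (M.incA_emb.continuous.comp continuous_fst)

/-- The modified surface. -/
def T : Surf m := M.D.glue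

/-- The part outside the centre. -/
def ιA : M.A.X → M.T.X := M.D.ι₁

/-- The new part. -/
def ιN : N'.X → M.T.X := M.D.ι₂

theorem embA : IsOpenEmbedding M.ιA := M.D.emb₁

theorem embN : IsOpenEmbedding M.ιN := M.D.emb₂

/-- The contraction. -/
def r (x : M.T.X) : S.X := Sum.elim M.incA (fun c => M.ρ c.1) x

theorem rA (a : M.A.X) : M.r (M.ιA a) = M.incA a := rfl

theorem rN (c : N'.X) : M.r (M.ιN c) = M.ρ c := by
  by_cases hc : c ∈ range M.D.j₂
  · obtain ⟨o, rfl⟩ := hc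
    have : M.ιN (M.D.j₂ o) = M.ιA (M.D.j₁ o) := M.D.ι₂_j₂ o
    rw [this, M.rA]; rfl
  · have : M.ιN c = Sum.inr ⟨c, hc⟩ := M.D.ι₂_of_not_mem hc
    rw [this]; rfl

theorem cases (x : M.T.X) : (∃ a, M.ιA a = x) ∨ ∃ c, M.ιN c = x := M.D.cases x

theorem cont_r : Continuous M.r := by
  have h : Continuous (M.r ∘ M.ιN) := by
    rw [show M.r ∘ M.ιN = M.ρ from funext M.rN]; exact M.cont
  exact (M.D.cont_iff (f := M.r)).2 ⟨M.incA_emb.continuous, h⟩

theorem πr (x : M.T.X) : S.π (M.r x) = M.T.π x := by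
  rcases M.cases x with ⟨a, rfl⟩ | ⟨c, rfl⟩
  · rfl
  · rw [M.rN, M.hπ]; exact (M.D.π₂ c).symm

theorem holA (a : M.A.X) (g : M.T.X → ℂ) : M.T.hol (M.ιA a) g ↔ M.A.hol a (g ∘ M.ιA) := Iff.rfl

theorem holN (c : N'.X) (g : M.T.X → ℂ) : M.T.hol (M.ιN c) g ↔ N'.hol c (g ∘ M.ιN) := M.D.hol₂ c g

theorem pull (x : M.T.X) (g : S.X → ℂ) (h : S.hol (M.r x) g) : M.T.hol x (g ∘ M.r) := by
  rcases M.cases x with ⟨a, rfl⟩ | ⟨c, rfl⟩
  · rw [M.holA, M.holA']; exact ⟨g, h, EventuallyEq.rfl⟩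
  · rw [M.holN]
    rw [M.rN] at h
    have : (g ∘ M.r) ∘ M.ιN = g ∘ M.ρ := by funext c; simp only [Function.comp_apply, M.rN]
    rw [this]; exact M.hpull _ _ h

theorem mem_rangeA {x : M.T.X} : x ∈ range M.ιA ↔ M.r x ∉ M.Z := by
  rcases M.cases x with ⟨a, rfl⟩ | ⟨c, rfl⟩
  · exact ⟨fun _ => M.incA_not_mem a, fun _ => mem_range_self _⟩
  · constructor
    · rintro ⟨a, ha⟩
      rw [← ha]; exact M.incA_not_mem a
    · intro h
      rw [M.rN] at h
      exact ⟨M.D.j₁ ⟨c, h⟩, (M.D.ι₂_j₂ ⟨c, h⟩).symm⟩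

theorem mem_rangeN {x : M.T.X} : x ∈ range M.ιN ↔ M.r x ∈ M.N := by
  rcases M.cases x with ⟨a, rfl⟩ | ⟨c, rfl⟩
  · constructor
    · rintro ⟨c, hc⟩
      rw [← hc, M.rN]; exact M.maps c
    · intro h
      obtain ⟨y, hy⟩ := M.surj (M.incA a) h (M.incA_not_mem a)
      have hy' : M.ρ y ∈ M.Zᶜ := by rw [hy]; exact M.incA_not_mem a
      refine ⟨y, ?_⟩
      have h1 : M.ιN y = M.ιA (M.j ⟨y, hy'⟩) := M.D.ι₂_j₂ ⟨y, hy'⟩
      rw [h1]
      exact congrArg M.ιA (M.incA_emb.injective hy)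
  · exact ⟨fun _ => by rw [M.rN]; exact M.maps c, fun _ => mem_range_self _⟩

/-- The contraction is proper. -/
theorem ultra (𝒰 : Ultrafilter M.T.X) (x : S.X) (h : map M.r 𝒰 ≤ 𝓝 x) :
    ∃ z, (𝒰 : Filter M.T.X) ≤ 𝓝 z := by
  by_cases hx : x ∈ M.Z
  · have hN : range M.ιN ∈ (𝒰 : Filter M.T.X) := by
      have : M.r ⁻¹' M.N ∈ (𝒰 : Filter M.T.X) := h (M.opn.mem_nhds (M.sub hx))
      exact mem_of_superset this fun z hz => M.mem_rangeN.2 hz
    have h1 := Ultrafilter.ofComapInfPrincipal_eq_of_map (m := M.ιN) (s := univ) (g := 𝒰)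
      (by rwa [image_univ])
    set 𝒱 := Ultrafilter.ofComapInfPrincipal (m := M.ιN) (s := univ) (g := 𝒰)
      (by rwa [image_univ]) with h𝒱
    have h2 : map M.ρ 𝒱 ≤ 𝓝 x := by
      have h3 : M.ρ = M.r ∘ M.ιN := (funext M.rN).symm
      rw [h3, ← Filter.map_map]
      rw [← h1] at h
      exact h
    obtain ⟨y, hy⟩ := M.proper 𝒱 x (M.sub hx) h2
    refine ⟨M.ιN y, ?_⟩
    rw [← h1, ← M.embN.map_nhds_eq]
    exact Filter.map_mono hy
  · set x' : M.A.X := Surf.toSub _ x hx with hx'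
    refine ⟨M.ιA x', ?_⟩
    have hA : range M.ιA ∈ (𝒰 : Filter M.T.X) := by
      have : M.r ⁻¹' M.Zᶜ ∈ (𝒰 : Filter M.T.X) := h (M.closed.isOpen_compl.mem_nhds hx)
      exact mem_of_superset this fun z hz => M.mem_rangeA.2 hz
    have h1 := Ultrafilter.ofComapInfPrincipal_eq_of_map (m := M.ιA) (s := univ) (g := 𝒰)
      (by rwa [image_univ])
    set 𝒱 := Ultrafilter.ofComapInfPrincipal (m := M.ιA) (s := univ) (g := 𝒰)
      (by rwa [image_univ]) with h𝒱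
    rw [← h1, ← M.embA.map_nhds_eq]
    refine Filter.map_mono ?_
    have h2 : map M.incA 𝒱 ≤ 𝓝 x := by
      have h3 : M.incA = M.r ∘ M.ιA := rfl
      rw [h3, ← Filter.map_map]
      rw [← h1] at h
      exact h
    have h4 : 𝓝 x = map M.incA (𝓝 x') := (M.incA_emb.map_nhds_eq x').symm
    rw [h4] at h2
    exact (Filter.map_le_map_iff_of_injOn univ_mem univ_mem M.incA_emb.injective.injOn).1 h2

end Modif

end Vale.Agent.P273.H948
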