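import Vale.Agent.P273.H948.Smooth

/-!
Proper families without marks, holomorphic sections, restriction to a smaller base, and their
behaviour under a modification.
-/

noncomputable section

open Set Filter Topology

namespace Vale.Agent.P273.H948

variable {m : ℕ}

/-- A proper family of connected nodal curves over the open set `B`. -/
structure PFam (m : ℕ) where
  /-- the total space -/
  S : Surf m
  /-- the base -/
  B : Set (Fin m → ℂ)
  openB : IsOpen B
  mem : ∀ p, S.π p ∈ B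
  proper : ∀ K ⊆ B, IsCompact K → IsCompact (S.π ⁻¹' K)
  conn : ∀ b ∈ B, IsConnected (S.π ⁻¹' {b})

/-- `σ` is a holomorphic section over `B`. -/
def IsSec (S : Surf m) (B : Set (Fin m → ℂ)) (σ : (Fin m → ℂ) → S.X) : Prop :=
  ∀ b ∈ B, S.π (σ b) = b ∧ ContinuousAt σ b ∧
    ∀ f, S.hol (σ b) f → AnalyticAt ℂ (fun b' => f (σ b')) b

theorem IsSec.mono {S : Surf m} {B B' : Set (Fin m → ℂ)} {σ : (Fin m → ℂ) → S.X}
    (h : IsSec S B σ) (hB : B' ⊆ B) : IsSec S B' σ := fun b hb => h b (hB hb)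

theorem Surf.smoothAt_open (S : Surf m) : IsOpen {x | S.SmoothAt x} := by
  rw [isOpen_iff_mem_nhds]
  rintro x ⟨U, u, v, t, hx, h, h0⟩
  rcases h0 with h0 | h0
  · filter_upwards [h.isOpen.mem_nhds hx, (h.cont_u hx) (isOpen_ne.mem_nhds h0)] with y hy hy'
    exact ⟨U, u, v, t, hy, h, Or.inl hy'⟩
  · filter_upwards [h.isOpen.mem_nhds hx, (h.cont_v hx) (isOpen_ne.mem_nhds h0)] with y hy hy'
    exact ⟨U, u, v, t, hy, h, Or.inr hy'⟩

/-- Smoothness passes through an open embedding. -/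
theorem smoothAt_image {S T : Surf m} {ι : S.X → T.X} (hι : IsOpenEmbedding ι)
    (hπ : ∀ x, T.π (ι x) = S.π x) (hh : ∀ x g, T.hol (ι x) g ↔ S.hol x (g ∘ ι)) {x : S.X}
    (h : S.SmoothAt x) : T.SmoothAt (ι x) := by
  obtain ⟨U, u, v, t, hx, h, h0⟩ := h
  refine ⟨_, _, _, t, mem_image_of_mem _ hx, h.image hι hπ hh, ?_⟩
  rw [hι.injective.extend_apply, hι.injective.extend_apply]
  exact h0

/-- Smoothness passes to an open subsurface. -/
theorem smoothAt_inc {S : Surf m} {O : Set S.X} {hO : IsOpen O} {x : (S.restrict O hO).X}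
    (h : S.SmoothAt (Surf.inc x)) : (S.restrict O hO).SmoothAt x := by
  obtain ⟨U, u, v, t, hx, h, h0⟩ := h
  exact ⟨_, _, _, t, hx, h.preimage Surf.inc_emb (fun _ => rfl) (fun _ _ => Iff.rfl), h0⟩

namespace Modif

variable {S N' : Surf m} (M : Modif S N')

/-- The fibres over the centre are connected. -/
def Fib : Prop := ∀ x ∈ M.Z, IsConnected (M.ρ ⁻¹' {x})

theorem r_inj : InjOn M.r (M.r ⁻¹' M.Zᶜ) := by
  intro x hx y hy h
  obtain ⟨a, rfl⟩ := M.mem_rangeA.2 hx
  obtain ⟨b, rfl⟩ := M.mem_rangeA.2 hy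
  rw [M.rA, M.rA] at h
  rw [M.incA_emb.injective h]

variable {M}

theorem Fib.surj (hF : M.Fib) : Function.Surjective M.r := by
  intro x
  by_cases hx : x ∈ M.Z
  · obtain ⟨y, hy⟩ := (hF x hx).nonempty
    exact ⟨M.ιN y, by rw [M.rN]; exact hy⟩
  · exact ⟨M.ιA (Surf.toSub _ x hx), rfl⟩

/-- A section of the contraction. -/
def Fib.lift (hF : M.Fib) : S.X → M.T.X := Function.surjInv hF.surj

theorem Fib.r_lift (hF : M.Fib) (x : S.X) : M.r (hF.lift x) = x := Function.surjInv_eq hF.surj x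

theorem Fib.lift_eq (hF : M.Fib) {z : M.T.X} (h : M.r z ∉ M.Z) : hF.lift (M.r z) = z :=
  M.r_inj (by change M.r _ ∈ M.Zᶜ; rw [hF.r_lift]; exact h) h (hF.r_lift _)

theorem Fib.lift_incA (hF : M.Fib) (a : M.A.X) : hF.lift (M.incA a) = M.ιA a := by
  have := hF.lift_eq (z := M.ιA a) (by rw [M.rA]; exact M.incA_not_mem a)
  rwa [M.rA] at this

theorem Fib.lift_ρ (hF : M.Fib) {y : N'.X} (h : M.ρ y ∉ M.Z) : hF.lift (M.ρ y) = M.ιN y := by
  have := hF.lift_eq (z := M.ιN y) (by rw [M.rN]; exact h)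
  rwa [M.rN] at this

theorem Fib.lift_cont (hF : M.Fib) {x : S.X} (hx : x ∉ M.Z) : ContinuousAt hF.lift x := by
  obtain ⟨a, rfl⟩ : ∃ a, M.incA a = x := ⟨Surf.toSub _ x hx, rfl⟩
  unfold ContinuousAt
  rw [← M.incA_emb.map_nhds_eq, Filter.tendsto_map'_iff, hF.lift_incA]
  have : hF.lift ∘ M.incA = M.ιA := funext hF.lift_incA
  rw [this]
  exact M.embA.continuous.continuousAt

theorem Fib.lift_hol (hF : M.Fib) {x : S.X} (hx : x ∉ M.Z) {g : M.T.X → ℂ}
    (h : M.T.hol (hF.lift x) g) : S.hol x (g ∘ hF.lift) := by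
  obtain ⟨a, rfl⟩ : ∃ a, M.incA a = x := ⟨Surf.toSub _ x hx, rfl⟩
  rw [hF.lift_incA, M.holA, M.holA'] at h
  obtain ⟨g', hg', e⟩ := h
  refine S.hol_congr hg' ?_
  rw [← M.incA_emb.map_nhds_eq]
  refine Filter.eventually_map.2 ?_
  filter_upwards [e] with y hy
  simp only [Function.comp_apply, hF.lift_incA]
  exact hy

theorem Fib.lift_π (hF : M.Fib) (x : S.X) : M.T.π (hF.lift x) = S.π x := by
  rw [← M.πr, hF.r_lift]

theorem Fib.sec (hF : M.Fib) {B : Set (Fin m → ℂ)} {σ : (Fin m → ℂ) → S.X} (h : IsSec S B σ)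
    (hZ : ∀ b ∈ B, σ b ∉ M.Z) : IsSec M.T B (hF.lift ∘ σ) := by
  intro b hb
  obtain ⟨h1, h2, h3⟩ := h b hb
  refine ⟨?_, (hF.lift_cont (hZ b hb)).comp h2, ?_⟩
  · rw [Function.comp_apply, hF.lift_π]; exact h1
  · intro f hf
    exact h3 _ (hF.lift_hol (hZ b hb) hf)

variable (M)

theorem secN {B : Set (Fin m → ℂ)} {σ : (Fin m → ℂ) → N'.X} (h : IsSec N' B σ) :
    IsSec M.T B (M.ιN ∘ σ) := by
  intro b hb
  obtain ⟨h1, h2, h3⟩ := h b hb
  refine ⟨?_, M.embN.continuous.continuousAt.comp h2, ?_⟩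
  · rw [Function.comp_apply, ← M.πr, M.rN, M.hπ]; exact h1
  · intro f hf
    exact h3 _ ((M.holN _ _).1 hf)

theorem smoothN {y : N'.X} (h : N'.SmoothAt y) : M.T.SmoothAt (M.ιN y) :=
  smoothAt_image M.embN (fun x => by rw [← M.πr, M.rN, M.hπ]) (fun x g => M.holN x g) h

theorem smoothA {a : M.A.X} (h : S.SmoothAt (M.incA a)) : M.T.SmoothAt (M.ιA a) :=
  smoothAt_image M.embA (fun _ => rfl) (fun x g => M.holA x g) (smoothAt_inc h)

variable {M}

theorem Fib.smooth (hF : M.Fib) {x : S.X} (hx : x ∉ M.Z) (h : S.SmoothAt x) :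
    M.T.SmoothAt (hF.lift x) := by
  obtain ⟨a, rfl⟩ : ∃ a, M.incA a = x := ⟨Surf.toSub _ x hx, rfl⟩
  rw [hF.lift_incA]
  exact M.smoothA h

/-- The contraction is a proper map. -/
theorem r_compact {K : Set S.X} (hK : IsCompact K) : IsCompact (M.r ⁻¹' K) := by
  rw [isCompact_iff_ultrafilter_le_nhds]
  intro 𝒰 h𝒰
  have h1 : (𝒰.map M.r : Filter S.X) ≤ 𝓟 K := by
    rw [Ultrafilter.coe_map, Filter.le_principal_iff, Filter.mem_map]
    exact Filter.le_principal_iff.1 h𝒰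
  obtain ⟨x, hx, h2⟩ := isCompact_iff_ultrafilter_le_nhds.1 hK (𝒰.map M.r) h1
  obtain ⟨z, hz⟩ := M.ultra 𝒰 x h2
  refine ⟨z, ?_, hz⟩
  have h3 : Tendsto M.r 𝒰 (𝓝 (M.r z)) := (M.cont_r.tendsto z).mono_left hz
  have h4 : M.r z = x := tendsto_nhds_unique h3 h2
  change M.r z ∈ K
  rw [h4]; exact hx

theorem fibre_conn (hF : M.Fib) (x : S.X) : IsConnected (M.r ⁻¹' {x}) := by
  by_cases hx : x ∈ M.Z
  · have h1 : M.r ⁻¹' {x} = M.ιN '' (M.ρ ⁻¹' {x}) := by
      ext z
      constructor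
      · intro hz
        obtain ⟨y, rfl⟩ := M.mem_rangeN.2 (by rw [show M.r z = x from hz]; exact M.sub hx)
        rw [mem_preimage, M.rN] at hz
        exact ⟨y, hz, rfl⟩
      · rintro ⟨y, hy, rfl⟩
        change M.r (M.ιN y) = x
        rw [M.rN]; exact hy
    rw [h1]
    exact (hF x hx).image _ M.embN.continuous.continuousOn
  · have h1 : M.r ⁻¹' {x} = {hF.lift x} := by
      ext z
      constructor
      · intro hz
        have hz' : M.r z = x := hz
        rw [mem_singleton_iff, ← hz', hF.lift_eq (by rw [hz']; exact hx)]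
      · rintro rfl
        exact hF.r_lift x
    rw [h1]
    exact isConnected_singleton

end Modif

/-- Preimages of connected compact sets under a continuous surjection with compact total preimage
and connected fibres are connected. -/
theorem isConnected_preimage_of_fibres {X Y : Type} [TopologicalSpace X] [TopologicalSpace Y]
    [T2Space Y] [T2Space X] {r : X → Y} (hr : Continuous r) {K : Set Y} (hK : IsConnected K)
    (hc : IsCompact (r ⁻¹' K)) (hf : ∀ y ∈ K, IsConnected (r ⁻¹' {y})) :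
    IsConnected (r ⁻¹' K) := by
  have hs : ∀ y ∈ K, ∃ x, r x = y := fun y hy => (hf y hy).nonempty
  refine ⟨?_, ?_⟩
  · obtain ⟨y, hy⟩ := hK.nonempty
    obtain ⟨x, hx⟩ := hs y hy
    exact ⟨x, by change r x ∈ K; rw [hx]; exact hy⟩
  · rw [isPreconnected_closed_iff]
    intro A C hA hC hcov hAn hCn
    by_contra hcon
    rw [not_nonempty_iff_eq_empty] at hcon
    -- images of the two parts
    have kA : IsClosed (r '' (r ⁻¹' K ∩ A)) := ((hc.inter_right hA).image hr).isClosed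
    have kC : IsClosed (r '' (r ⁻¹' K ∩ C)) := ((hc.inter_right hC).image hr).isClosed
    have h1 := (isPreconnected_closed_iff.1 hK.isPreconnected) _ _ kA kC ?_ ?_ ?_
    · obtain ⟨y, hy, ⟨x₁, hx₁, e₁⟩, ⟨x₂, hx₂, e₂⟩⟩ := h1
      have h2 := (isPreconnected_closed_iff.1 (hf y hy).isPreconnected) A C hA hC ?_
        ⟨x₁, e₁, hx₁.2⟩ ⟨x₂, e₂, hx₂.2⟩
      · obtain ⟨x, hx, hxA, hxC⟩ := h2
        have hx' : r x = y := hx
        have : x ∈ r ⁻¹' K ∩ (A ∩ C) := ⟨by change r x ∈ K; rw [hx']; exact hy, hxA, hxC⟩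
        rw [hcon] at this
        exact this
      · intro x hx
        have hx' : r x = y := hx
        exact hcov (by change r x ∈ K; rw [hx']; exact hy)
    · intro y hy
      obtain ⟨x, hx⟩ := hs y hy
      have hxK : x ∈ r ⁻¹' K := by change r x ∈ K; rw [hx]; exact hy
      rcases hcov hxK with h | h
      · exact Or.inl ⟨x, ⟨hxK, h⟩, hx⟩
      · exact Or.inr ⟨x, ⟨hxK, h⟩, hx⟩
    · obtain ⟨x, hx, hxA⟩ := hAn
      exact ⟨r x, hx, x, ⟨hx, hxA⟩, rfl⟩
    · obtain ⟨x, hx, hxC⟩ := hCn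
      exact ⟨r x, hx, x, ⟨hx, hxC⟩, rfl⟩

namespace PFam

/-- The modified family. -/
def modify (F : PFam m) {N' : Surf m} (M : Modif F.S N') (hF : M.Fib) : PFam m where
  S := M.T
  B := F.B
  openB := F.openB
  mem p := by rw [← M.πr]; exact F.mem _
  proper K hK hK' := by
    have : M.T.π ⁻¹' K = M.r ⁻¹' (F.S.π ⁻¹' K) := by
      ext z; simp only [mem_preimage, M.πr]
    rw [this]
    exact Modif.r_compact (F.proper K hK hK')
  conn b hb := by
    have : M.T.π ⁻¹' {b} = M.r ⁻¹' (F.S.π ⁻¹' {b}) := by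
      ext z; simp only [mem_preimage, M.πr]
    rw [this]
    exact isConnected_preimage_of_fibres M.cont_r (F.conn b hb)
      (Modif.r_compact (F.proper _ (singleton_subset_iff.2 hb) isCompact_singleton))
      (fun y _ => Modif.fibre_conn hF y)

/-- Restriction to a smaller base. -/
def shrink (F : PFam m) (B' : Set (Fin m → ℂ)) (hB' : IsOpen B') (hB : B' ⊆ F.B) : PFam m where
  S := F.S.restrict (F.S.π ⁻¹' B') (hB'.preimage F.S.cont_π)
  B := B'
  openB := hB'
  mem p := Surf.inc_mem p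
  proper K hK hK' := by
    rw [Surf.inc_emb.isInducing.isCompact_iff]
    have : Surf.inc '' ((F.S.restrict (F.S.π ⁻¹' B') (hB'.preimage F.S.cont_π)).π ⁻¹' K) =
        F.S.π ⁻¹' K := by
      ext z
      constructor
      · rintro ⟨y, hy, rfl⟩
        exact hy
      · intro hz
        exact ⟨Surf.toSub _ z (hK hz), hz, rfl⟩
    rw [this]
    exact F.proper K (hK.trans hB) hK'
  conn b hb := by
    have h1 := F.conn b (hB hb)
    have h2 : F.S.π ⁻¹' {b} ⊆ range (Surf.inc :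
        (F.S.restrict (F.S.π ⁻¹' B') (hB'.preimage F.S.cont_π)).X → F.S.X) := by
      rw [Surf.range_inc]
      intro z hz
      have : F.S.π z = b := hz
      change F.S.π z ∈ B'
      rw [this]; exact hb
    exact h1.preimage_of_isOpenMap Surf.inc_inj Surf.inc_emb.isOpenMap h2

end PFam

end Vale.Agent.P273.H948
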