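import Vale.Agent.P273.H948.Surgery
import Vale.Agent.P273.H183.Fam

/-!
`IsModel` is the same as `IsChart`.
-/

noncomputable section

open Set Filter Topology

namespace Vale.Agent.P273.H948

variable {m : ℕ} {X : Type} [TopologicalSpace X] {π : X → Fin m → ℂ}
  {hol : X → (X → ℂ) → Prop} {U : Set X} {u v : X → ℂ} {t : (Fin m → ℂ) → ℂ}

theorem IsModel.isChart (h : IsModel π hol U u v t) :
    H183.IsChart π (fun f p => hol p f) U u v t := by
  refine ⟨h.isOpen, h.an, h.inj, ?_, h.hol⟩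
  intro V hVU
  constructor
  · intro hV
    have h1 : ∀ p ∈ V, ∃ W : Set (Amb m), IsOpen W ∧ Emap π u v p ∈ W ∧
        W ∩ Mset t ⊆ Emap π u v '' V := by
      intro p hp
      have h2 : Emap π u v '' V ∈ map (Emap π u v) (𝓝 p) := image_mem_map (hV.mem_nhds hp)
      rw [h.nhds p (hVU hp)] at h2
      obtain ⟨W, hW, hp', h3⟩ := mem_nhdsWithin.1 h2
      exact ⟨W, hW, hp', h3⟩
    choose! W hW hpW hWV using h1
    refine ⟨⋃ p ∈ V, W p, isOpen_biUnion fun p hp => hW p hp, ?_⟩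
    ext w
    constructor
    · rintro ⟨p, hp, rfl⟩
      exact ⟨mem_biUnion hp (hpW p hp), h.eqn p (hVU hp)⟩
    · rintro ⟨hw, hw'⟩
      obtain ⟨p, hp, hw2⟩ := mem_iUnion₂.1 hw
      exact hWV p hp ⟨hw2, hw'⟩
  · rintro ⟨W, hW, e⟩
    rw [isOpen_iff_mem_nhds]
    intro p hp
    have h1 : Emap π u v p ∈ W := by
      have : Emap π u v p ∈ (fun p => (π p, u p, v p)) '' V := mem_image_of_mem _ hp
      rw [e] at this; exact this.1
    filter_upwards [h.isOpen.mem_nhds (hVU hp), (h.cont (hVU hp)) (hW.mem_nhds h1)] with q hq hq'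
    have h2 : Emap π u v q ∈ (fun p => (π p, u p, v p)) '' V := by
      rw [e]; exact ⟨hq', h.eqn q hq⟩
    obtain ⟨q', hq'V, e2⟩ := h2
    rw [← h.inj (hVU hq'V) hq e2]; exact hq'V

theorem _root_.Vale.Agent.P273.H183.IsChart.isModel
    (h : H183.IsChart π (fun f p => hol p f) U u v t) : IsModel π hol U u v t := by
  obtain ⟨h1, h2, h3, h4, h5⟩ := h
  obtain ⟨W, hW, eW⟩ := (h4 U le_rfl).1 h1
  have eqn : ∀ y ∈ U, u y * v y = t (π y) := by
    intro y hy
    have : Emap π u v y ∈ (fun p => (π p, u p, v p)) '' U := mem_image_of_mem _ hy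
    rw [eW] at this; exact this.2
  refine ⟨h1, h3, eqn, h2, ?_, h5⟩
  intro y hy
  refine le_antisymm ?_ ?_
  · have hc : ContinuousAt (Emap π u v) y := by
      intro s hs
      obtain ⟨s', hs's, hs', hy'⟩ := mem_nhds_iff.1 hs
      have h6 : IsOpen (U ∩ Emap π u v ⁻¹' s') := by
        rw [h4 _ inter_subset_left]
        refine ⟨W ∩ s', hW.inter hs', ?_⟩
        ext w
        constructor
        · rintro ⟨p, ⟨hp, hp'⟩, rfl⟩
          have : Emap π u v p ∈ (fun p => (π p, u p, v p)) '' U := mem_image_of_mem _ hp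
          rw [eW] at this
          exact ⟨⟨this.1, hp'⟩, this.2⟩
        · rintro ⟨⟨hw, hw'⟩, hw2⟩
          have : w ∈ (fun p => (π p, u p, v p)) '' U := by rw [eW]; exact ⟨hw, hw2⟩
          obtain ⟨p, hp, rfl⟩ := this
          exact ⟨p, ⟨hp, hw'⟩, rfl⟩
      exact Filter.mem_map.2 (mem_of_superset (h6.mem_nhds ⟨hy, hy'⟩) fun q hq => hs's hq.2)
    refine tendsto_nhdsWithin_iff.2 ⟨hc, ?_⟩
    filter_upwards [h1.mem_nhds hy] with q hq
    exact eqn q hq
  · intro s hs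
    obtain ⟨V, hV, hVo, hyV⟩ := mem_nhds_iff.1 (inter_mem (mem_map.1 hs) (h1.mem_nhds hy))
    obtain ⟨W', hW', e'⟩ := (h4 V (fun q hq => (hV hq).2)).1 hVo
    have hyW : Emap π u v y ∈ {w ∈ W' | w.2.1 * w.2.2 = t w.1} := by
      rw [← e']; exact mem_image_of_mem _ hyV
    refine mem_nhdsWithin.2 ⟨W', hW', hyW.1, ?_⟩
    rintro w ⟨hw, hw'⟩
    have : w ∈ (fun p => (π p, u p, v p)) '' V := by rw [e']; exact ⟨hw, hw'⟩
    obtain ⟨p, hp, rfl⟩ := this
    exact (hV hp).1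

theorem isModel_iff_isChart :
    IsModel π hol U u v t ↔ H183.IsChart π (fun f p => hol p f) U u v t :=
  ⟨IsModel.isChart, H183.IsChart.isModel⟩

end Vale.Agent.P273.H948
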