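import Vale.Agent.P273.H948.PFam

/-!
States of the insertion process: a proper family with a contraction to the start family and with
positions of all labels, those in `A` being marked points.
-/

noncomputable section

open Set Filter Topology

namespace Vale.Agent.P273.H948

variable {m : ℕ}

namespace Surf

variable {S : Surf m} {O : Set S.X} {hO : IsOpen O}

open Classical in
/-- A section of `S` as a section of the open subsurface `O`. -/
def rsec (hO : IsOpen O) (x₀ : (S.restrict O hO).X) (σ : (Fin m → ℂ) → S.X) (b : Fin m → ℂ) :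
    (S.restrict O hO).X :=
  if h : σ b ∈ O then toSub hO (σ b) h else x₀

theorem inc_rsec {x₀ : (S.restrict O hO).X} {σ : (Fin m → ℂ) → S.X} {b : Fin m → ℂ}
    (h : σ b ∈ O) : inc (rsec hO x₀ σ b) = σ b := by
  have : rsec hO x₀ σ b = toSub hO (σ b) h := dif_pos h
  rw [this, inc_toSub]

theorem inc_rsec_eventually {x₀ : (S.restrict O hO).X} {σ : (Fin m → ℂ) → S.X} {b : Fin m → ℂ}
    (h : σ b ∈ O) (hc : ContinuousAt σ b) : inc ∘ rsec hO x₀ σ =ᶠ[𝓝 b] σ := by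
  filter_upwards [hc (hO.mem_nhds h)] with b' hb'
  exact inc_rsec hb'

theorem isSec_rsec {B : Set (Fin m → ℂ)} {x₀ : (S.restrict O hO).X}
    {σ : (Fin m → ℂ) → S.X} (h : IsSec S B σ) (hm : ∀ b ∈ B, σ b ∈ O) :
    IsSec (S.restrict O hO) B (rsec hO x₀ σ) := by
  intro b hb
  obtain ⟨h1, h2, h3⟩ := h b hb
  have he := inc_rsec_eventually (x₀ := x₀) (hO := hO) (hm b hb) h2
  have hc : ContinuousAt (rsec hO x₀ σ) b := by
    rw [inc_emb.isInducing.continuousAt_iff]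
    refine ContinuousAt.congr_of_eventuallyEq ?_ he
    exact h2
  refine ⟨?_, hc, ?_⟩
  · rw [← inc_π, inc_rsec (hm b hb)]; exact h1
  · intro f hf
    rw [restrict_hol] at hf
    obtain ⟨g, hg, e⟩ := hf
    rw [inc_rsec (hm b hb)] at hg
    refine (h3 g hg).congr ?_
    filter_upwards [he, hc.eventually e] with b' h4 h5
    rw [h5, Function.comp_apply, ← h4]; rfl

end Surf

namespace PFam

variable (F : PFam m) {B' : Set (Fin m → ℂ)} {hB' : IsOpen B'} {hB : B' ⊆ F.B}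

/-- The inclusion of the family over the smaller base. -/
def inc (x : (F.shrink B' hB' hB).S.X) : F.S.X :=
  Surf.inc (hO := hB'.preimage F.S.cont_π) x

/-- A section over the smaller base. -/
def rsec (x₀ : (F.shrink B' hB' hB).S.X) (σ : (Fin m → ℂ) → F.S.X) :
    (Fin m → ℂ) → (F.shrink B' hB' hB).S.X :=
  Surf.rsec (hB'.preimage F.S.cont_π) x₀ σ

variable {F}

theorem inc_emb : IsOpenEmbedding (F.inc : (F.shrink B' hB' hB).S.X → F.S.X) :=
  Surf.inc_emb (hO := hB'.preimage F.S.cont_π)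

theorem inc_hol (x : (F.shrink B' hB' hB).S.X) (g : (F.shrink B' hB' hB).S.X → ℂ) :
    (F.shrink B' hB' hB).S.hol x g ↔ ∃ g', F.S.hol (F.inc x) g' ∧ g =ᶠ[𝓝 x] g' ∘ F.inc := Iff.rfl

theorem inc_hol_comp (x : (F.shrink B' hB' hB).S.X) (g : F.S.X → ℂ) :
    (F.shrink B' hB' hB).S.hol x (g ∘ F.inc) ↔ F.S.hol (F.inc x) g := Surf.restrict_hol_comp x g

theorem inc_π (x : (F.shrink B' hB' hB).S.X) : F.S.π (F.inc x) = (F.shrink B' hB' hB).S.π x := rfl

theorem exists_inc {x : F.S.X} (h : F.S.π x ∈ B') :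
    ∃ y : (F.shrink B' hB' hB).S.X, F.inc y = x :=
  ⟨Surf.toSub (hB'.preimage F.S.cont_π) x h, rfl⟩

theorem inc_rsec {x₀ : (F.shrink B' hB' hB).S.X} {σ : (Fin m → ℂ) → F.S.X}
    (h : IsSec F.S F.B σ) {b : Fin m → ℂ} (hb : b ∈ B') : F.inc (F.rsec x₀ σ b) = σ b :=
  Surf.inc_rsec (by change F.S.π (σ b) ∈ B'; rw [(h b (hB hb)).1]; exact hb)

theorem isSec_rsec {x₀ : (F.shrink B' hB' hB).S.X} {σ : (Fin m → ℂ) → F.S.X}
    (h : IsSec F.S F.B σ) : IsSec (F.shrink B' hB' hB).S B' (F.rsec x₀ σ) :=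
  Surf.isSec_rsec (h.mono hB) fun b hb => by
    change F.S.π (σ b) ∈ B'
    rw [(h b (hB hb)).1]; exact hb

theorem smoothAt_inc {x : (F.shrink B' hB' hB).S.X} (h : F.S.SmoothAt (F.inc x)) :
    (F.shrink B' hB' hB).S.SmoothAt x := Vale.Agent.P273.H948.smoothAt_inc h

end PFam

/-- A state: a family `F` with a contraction `r` to `X₀` and lifted positions `s j` of all labels;
those in `A` are distinct smooth points. -/
structure State (X₀ : Surf m) {L : Type} (P : L → (Fin m → ℂ) → X₀.X) (A : Set L) where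
  /-- the family -/
  F : PFam m
  /-- the contraction -/
  r : F.S.X → X₀.X
  /-- the positions -/
  s : L → (Fin m → ℂ) → F.S.X
  cont_r : Continuous r
  π_r : ∀ x, X₀.π (r x) = F.S.π x
  pull : ∀ x g, X₀.hol (r x) g → F.S.hol x (g ∘ r)
  sec : ∀ j, IsSec F.S F.B (s j)
  rs : ∀ j, ∀ b ∈ F.B, r (s j b) = P j b
  smooth : ∀ j ∈ A, ∀ b ∈ F.B, F.S.SmoothAt (s j b)
  inj : ∀ i ∈ A, ∀ j ∈ A, ∀ b ∈ F.B, s i b = s j b → i = j
  bij : ∀ b ∈ F.B, (∀ j, X₀.SmoothAt (P j b)) → (∀ i j, P i b = P j b → i = j) →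
    BijOn r (F.S.π ⁻¹' {b}) (X₀.π ⁻¹' {b})

namespace State

variable {X₀ : Surf m} {L : Type} {P : L → (Fin m → ℂ) → X₀.X} {A : Set L}

/-- The initial state. -/
def init (F : PFam m) (P : L → (Fin m → ℂ) → F.S.X) (hP : ∀ j, IsSec F.S F.B (P j)) :
    State F.S P ∅ where
  F := F
  r := id
  s := P
  cont_r := continuous_id
  π_r _ := rfl
  pull _ _ h := h
  sec := hP
  rs _ _ _ := rfl
  smooth _ h := h.elim
  inj _ h := h.elim
  bij _ _ _ _ := bijOn_id _

/-- Shrink the base. -/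
def shrink (σ : State X₀ P A) (B' : Set (Fin m → ℂ)) (hB' : IsOpen B') (hB : B' ⊆ σ.F.B)
    (x₀ : (σ.F.shrink B' hB' hB).S.X) : State X₀ P A where
  F := σ.F.shrink B' hB' hB
  r x := σ.r (σ.F.inc x)
  s j := σ.F.rsec x₀ (σ.s j)
  cont_r := σ.cont_r.comp PFam.inc_emb.continuous
  π_r x := σ.π_r _
  pull x g hg := (PFam.inc_hol_comp x _).2 (σ.pull _ g hg)
  sec j := PFam.isSec_rsec (σ.sec j)
  rs j b hb := by
    have hb : b ∈ B' := hb
    rw [PFam.inc_rsec (σ.sec j) hb]; exact σ.rs j b (hB hb)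
  smooth j hj b hb := by
    have hb : b ∈ B' := hb
    refine PFam.smoothAt_inc ?_
    rw [PFam.inc_rsec (σ.sec j) hb]; exact σ.smooth j hj b (hB hb)
  inj i hi j hj b hb e := by
    have hb : b ∈ B' := hb
    have e' := congrArg σ.F.inc e
    rw [PFam.inc_rsec (σ.sec i) hb, PFam.inc_rsec (σ.sec j) hb] at e'
    exact σ.inj i hi j hj b (hB hb) e'
  bij b hb h1 h2 := by
    have h3 := σ.bij b (hB hb) h1 h2
    refine ⟨fun x hx => h3.mapsTo hx,
      fun x hx y hy e => PFam.inc_emb.injective (h3.injOn hx hy e), ?_⟩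
    intro y hy
    obtain ⟨x, hx, rfl⟩ := h3.surjOn hy
    have hx' : σ.F.S.π x = b := hx
    obtain ⟨z, rfl⟩ := PFam.exists_inc (F := σ.F) (hB' := hB') (hB := hB) (x := x)
      (by rw [hx']; exact hb)
    exact ⟨z, hx, rfl⟩

/-- The label `j` becomes a marked point. -/
def add (σ : State X₀ P A) (j : L) (hs : ∀ b ∈ σ.F.B, σ.F.S.SmoothAt (σ.s j b))
    (hd : ∀ b ∈ σ.F.B, ∀ i ∈ A, σ.s i b ≠ σ.s j b) : State X₀ P (insert j A) where
  F := σ.F
  r := σ.r
  s := σ.s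
  cont_r := σ.cont_r
  π_r := σ.π_r
  pull := σ.pull
  sec := σ.sec
  rs := σ.rs
  smooth := by
    rintro i (rfl | hi) b hb
    · exact hs b hb
    · exact σ.smooth i hi b hb
  inj := by
    rintro i (rfl | hi) k (rfl | hk) b hb e
    · rfl
    · exact absurd e.symm (hd b hb k hk)
    · exact absurd e (hd b hb i hi)
    · exact σ.inj i hi k hk b hb e
  bij := σ.bij

/-- The modified state. -/
def mod (σ : State X₀ P A) {N' : Surf m} (M : Modif σ.F.S N') (hF : M.Fib)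
    (s' : L → (Fin m → ℂ) → M.T.X) (hsec : ∀ j, IsSec M.T σ.F.B (s' j))
    (hrs : ∀ j, ∀ b ∈ σ.F.B, M.r (s' j b) = σ.s j b) (A' : Set L)
    (hsm : ∀ j ∈ A', ∀ b ∈ σ.F.B, M.T.SmoothAt (s' j b))
    (hinj : ∀ i ∈ A', ∀ j ∈ A', ∀ b ∈ σ.F.B, s' i b = s' j b → i = j)
    (hZ : ∀ x ∈ M.Z, (∀ j, X₀.SmoothAt (P j (σ.F.S.π x))) →
      ¬ ∀ i j, P i (σ.F.S.π x) = P j (σ.F.S.π x) → i = j) :
    State X₀ P A' where
  F := σ.F.modify M hF
  r x := σ.r (M.r x)
  s := s'
  cont_r := σ.cont_r.comp M.cont_r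
  π_r x := (σ.π_r (M.r x)).trans (M.πr x)
  pull x g hg := M.pull x _ (σ.pull _ g hg)
  sec := hsec
  rs j b hb := by rw [hrs j b hb]; exact σ.rs j b hb
  smooth := hsm
  inj := hinj
  bij b hb h1 h2 := by
    have h3 := σ.bij b hb h1 h2
    have hZ' : ∀ x, σ.F.S.π x = b → x ∉ M.Z := by
      rintro x rfl hx
      exact hZ x hx h1 h2
    have hπ : ∀ x, (σ.F.modify M hF).S.π x = σ.F.S.π (M.r x) := fun x => (M.πr x).symm
    refine ⟨fun x hx => h3.mapsTo ?_, fun x hx y hy e => ?_, ?_⟩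
    · change σ.F.S.π (M.r x) = b
      rw [← hπ]; exact hx
    · have hx' : σ.F.S.π (M.r x) = b := by rw [← hπ]; exact hx
      have hy' : σ.F.S.π (M.r y) = b := by rw [← hπ]; exact hy
      exact M.r_inj (hZ' _ hx') (hZ' _ hy') (h3.injOn hx' hy' e)
    · intro y hy
      obtain ⟨x, hx, rfl⟩ := h3.surjOn hy
      refine ⟨hF.lift x, (hF.lift_π x).trans hx, ?_⟩
      change σ.r (M.r (hF.lift x)) = σ.r x
      rw [hF.r_lift]

end State

end Vale.Agent.P273.H948
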