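import Vale.Agent.P273.H768.Steps
import Vale.Agent.P273.H949.StartQ
import Vale.Agent.P273.H949.QBub
import Vale.Agent.P273.H949.QNodeState
import Vale.Agent.P273.H507.Ctr

/-!
From a good initial position of the labels to a stable family near the point `c` with a contraction
to the start family.
-/

noncomputable section

open Set Filter Topology

namespace Vale.Agent.P273.H948

open Vale.Agent.P273.H183 (Fam)
open Vale.Agent.P273.H507 (Ctr)
open Vale.Agent.P273.H949 (QStab NoFld toFam)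

variable {m : ℕ} {L : Type}

/-- The absence of vector fields is inherited by all moves. -/
theorem closed_qStab (X₀ : Surf m) (P : L → (Fin m → ℂ) → X₀.X) :
    H768.Closed (X₀ := X₀) (P := P) fun _ σ => QStab σ where
  shrink _ _ B' hB' hB x₀ h := h.shrink B' hB' hB x₀
  add _ _ j hs hd _ h := h.add j hs hd
  bub _ _ _ _ N h := h.bubState N
  node _ _ _ N h := h.nodeState N

/-- **A stable family with a contraction to the start family near a good point.** -/
theorem exists_ctr [Finite L] {F : PFam m} {P : L → (Fin m → ℂ) → F.S.X}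
    (hP : ∀ j, IsSec F.S F.B (P j)) (hst : ∀ b ∈ F.B, NoFld F.S b ∅) {Λ : H768.Lab L m}
    {c : Fin m → ℂ} (hc : c ∈ F.B) (hg : H768.Good (X₀ := F.S) Λ F.S id P c) :
    ∃ C : Fam L m, c ∈ C.B ∧ C.B ⊆ F.B ∧ C.IsStable ∧ ∃ r, Ctr C F.S P r := by
  obtain ⟨σ, h1, h2, h3⟩ := H768.exists_state (closed_qStab F.S P) (State.init F P hP) hc
    (QStab.init hst) hg
  exact ⟨toFam σ.F σ.s, h1, h2, h3.isStable, σ.r, H507.ctr_of_state σ⟩

/-- The same over the family of the curves `y ^ 2 = f(x)`. -/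
theorem exists_ctr_start [Finite L] {W : Set (Fin m → ℂ)} {a : (Fin m → ℂ) → Fin 6 → ℂ}
    (hW : IsOpen W) (ha : ∀ b ∈ W, AnalyticAt ℂ a b) (hK : ∀ b ∈ W, a b ∈ H183.K6)
    {P : L → (Fin m → ℂ) → H183.tot W a}
    (hP : ∀ j, IsSec (H183.startS W a hW ha hK) W (P j)) {Λ : H768.Lab L m}
    {c : Fin m → ℂ} (hc : c ∈ W)
    (hg : H768.Good (X₀ := H183.startS W a hW ha hK) Λ (H183.startS W a hW ha hK) id P c) :
    ∃ C : Fam L m, c ∈ C.B ∧ C.B ⊆ W ∧ C.IsStable ∧
      ∃ r, Ctr C (H183.startS W a hW ha hK) P r :=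
  exists_ctr (F := H183.startP W a hW ha hK) hP
    (fun _ hb => H949.start_noFld hW ha hK hb ∅) hc hg

end Vale.Agent.P273.H948
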