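import Vale.Agent.P273.H948.RealOf
import Vale.Agent.P273.H888.PosP

/-!
From a good initial position of the labels, given by coordinates, to a stable family near the point
`c` with a contraction to the start family.
-/

noncomputable section

open Set Filter Topology

namespace Vale.Agent.P273.H948

open Vale.Agent.P273.H183 (Fam tot startS)
open Vale.Agent.P273.H507 (Ctr)
open Vale.Agent.P273.H888 (posP)

variable {n : ℕ} {L : Type} [Finite L]

theorem nonempty_tot {W : Set (Fin n → ℂ)} {a : (Fin n → ℂ) → Fin 6 → ℂ} {c : Fin n → ℂ}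
    (hc : c ∈ W) : Nonempty (tot W a) := by
  obtain ⟨y, hy⟩ := IsAlgClosed.exists_pow_nat_eq (k := ℂ) (H183.sx (a c) 0) (n := 2) (by norm_num)
  exact ⟨H183.pA c 0 y ⟨hc, hy⟩⟩

/-- **A stable family near a good point**, with positions `z`, `v` in the charts `S`. -/
theorem real_data {W : Set (Fin n → ℂ)} {a : (Fin n → ℂ) → Fin 6 → ℂ} [Nonempty (tot W a)]
    (hW : IsOpen W) (ha : ∀ b ∈ W, AnalyticAt ℂ a b) (hK : ∀ b ∈ W, a b ∈ H183.K6)
    {S : L → Bool} {z v : L → (Fin n → ℂ) → ℂ} (hz : ∀ j, ∀ b ∈ W, AnalyticAt ℂ (z j) b)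
    (hv : ∀ j, ∀ b ∈ W, AnalyticAt ℂ (v j) b)
    (he : ∀ j, ∀ b ∈ W, v j b ^ 2 = H95.pol (S j) (a b) (z j b)) {Λ : H768.Lab L n}
    {c : Fin n → ℂ} (hc : c ∈ W)
    (hg : H768.Good (X₀ := startS W a hW ha hK) Λ (startS W a hW ha hK) id
      (fun j => posP (S j) (z j) (v j)) c) :
    ∃ C : Fam L n, c ∈ C.B ∧ C.B ⊆ W ∧ C.IsStable ∧
      ∃ r, Ctr C (startS W a hW ha hK) (fun j => posP (S j) (z j) (v j)) r :=
  exists_ctr_start hW ha hK
    (fun j => H888.isSec_posP hW ha hK hW Subset.rfl (hz j) (hv j) (he j)) hc hg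

end Vale.Agent.P273.H948
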