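import Vale.Agent.P273.H948.State
import Vale.Agent.P273.H469.Node
import Vale.Agent.P273.H469.Bub

/-!
The two moves on states: insertion of a label at a node (M3) and at an inserted mark (M2), the
closure conditions for a motive (`Motive`) and the invariant of the insertion process (`Inv`).
-/

noncomputable section

open Set Filter Topology OnePoint

namespace Vale.Agent.P273.H948

open Vale.Agent.P273.H469

variable {m : ℕ} {X₀ : Surf m} {L : Type} {P : L → (Fin m → ℂ) → X₀.X} {A : Set L}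

/-- Insertion of the label `j`, which sits at a node over `c`: the labels in `K` (not inserted,
`j ∈ K`) are carried to the new component, with the positions `α k b` (`α j = 1`). -/
structure NodeMove (σ : State X₀ P A) (j : L) where
  /-- the chart at the node and the factors `τ₀ = u (s j b)`, `τ₁ = v (s j b)` -/
  D : NodeData σ.F.S
  /-- a point over which `j` is at the node -/
  c : Fin m → ℂ
  /-- the labels carried to the new component -/
  K : Set L
  /-- their positions on the new component -/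
  α : L → (Fin m → ℂ) → ℂ
  mem_c : c ∈ σ.F.B
  jK : j ∈ K
  KA : ∀ k ∈ K, k ∉ A
  α_j : ∀ b, α j b = 1
  α_an : ∀ k ∈ K, ∀ b ∈ σ.F.B, AnalyticAt ℂ (α k) b
  mem : ∀ k ∈ K, ∀ b ∈ σ.F.B, σ.s k b ∈ D.U
  rel_u : ∀ k ∈ K, ∀ b ∈ σ.F.B, D.u (σ.s k b) = D.τ₀ b * α k b
  rel_v : ∀ k ∈ K, ∀ b ∈ σ.F.B, α k b * D.v (σ.s k b) = D.τ₁ b
  zero₀ : D.τ₀ c = 0
  zero₁ : D.τ₁ c = 0
  node : ∀ x ∈ D.U, D.u x = 0 → D.v x = 0 → ¬ X₀.SmoothAt (σ.r x)
  off : ∀ k ∉ K, ∀ b ∈ σ.F.B, σ.s k b ≠ σ.s j b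

/-- Insertion of the label `j`, which coincides over `c` with the inserted mark `i`. -/
structure BubMove (σ : State X₀ P A) (i j : L) where
  /-- the coordinate `ξ` vanishing on `s i` and `t = ξ (s j b)` -/
  D : BubData σ.F.S
  /-- a point over which `i` and `j` coincide -/
  c : Fin m → ℂ
  mem_c : c ∈ σ.F.B
  iA : i ∈ A
  jA : j ∉ A
  mem_i : ∀ b ∈ σ.F.B, σ.s i b ∈ D.U
  mem_j : ∀ b ∈ σ.F.B, σ.s j b ∈ D.U
  ξ_i : ∀ b ∈ σ.F.B, D.ξ (σ.s i b) = 0
  ξ_j : ∀ b ∈ σ.F.B, D.ξ (σ.s j b) = D.t b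
  zero : D.t c = 0
  off : ∀ k, k ≠ i → k ≠ j → ∀ b ∈ σ.F.B, σ.s k b ≠ σ.s i b ∧ σ.s k b ≠ σ.s j b

end Vale.Agent.P273.H948
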