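import Vale.Agent.P273.H948.Inv

/-!
Transport of models, smooth points and necks through a modification.
-/

noncomputable section

open Set Filter Topology OnePoint

namespace Vale.Agent.P273.H948

open Vale.Agent.P273.H469

variable {m : ℕ}

theorem IsModel.congr {X : Type} [TopologicalSpace X] {π : X → Fin m → ℂ}
    {hol : X → (X → ℂ) → Prop} {U : Set X} {u v u' v' : X → ℂ} {t : (Fin m → ℂ) → ℂ}
    (h : IsModel π hol U u v t) (hu : ∀ x ∈ U, u' x = u x) (hv : ∀ x ∈ U, v' x = v x) :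
    IsModel π hol U u' v' t := by
  have eE : ∀ x ∈ U, Emap π u' v' x = Emap π u v x := by
    intro x hx; simp only [Emap, hu x hx, hv x hx]
  have eE' : ∀ x ∈ U, Emap π u' v' =ᶠ[𝓝 x] Emap π u v := by
    intro x hx
    filter_upwards [h.isOpen.mem_nhds hx] with y hy
    exact eE y hy
  refine ⟨h.isOpen, ?_, ?_, h.an, ?_, ?_⟩
  · intro x hx y hy hxy
    rw [eE x hx, eE y hy] at hxy
    exact h.inj hx hy hxy
  · intro y hy; rw [hu y hy, hv y hy]; exact h.eqn y hy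
  · intro y hy
    rw [Filter.map_congr (eE' y hy), eE y hy]; exact h.nhds y hy
  · intro y hy g
    rw [h.hol y hy, eE y hy]
    refine exists_congr fun k => and_congr_right fun _ => ?_
    have h1 : k ∘ Emap π u' v' =ᶠ[𝓝 y] k ∘ Emap π u v := (eE' y hy).fun_comp k
    exact ⟨fun h2 => h2.trans h1.symm, fun h2 => h2.trans h1⟩

namespace Modif

variable {S N' : Surf m} {M : Modif S N'}

theorem isModel_lift {U : Set S.X} {u v : S.X → ℂ} {t : (Fin m → ℂ) → ℂ}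
    (h : IsModel S.π S.hol U u v t) (hU : ∀ x ∈ U, x ∉ M.Z) :
    IsModel M.T.π M.T.hol (M.r ⁻¹' U) (u ∘ M.r) (v ∘ M.r) t := by
  have h1 : IsModel M.A.π M.A.hol (M.incA ⁻¹' U) (u ∘ M.incA) (v ∘ M.incA) t :=
    h.preimage M.incA_emb (fun _ => rfl) (fun _ _ => Iff.rfl)
  have h2 := h1.image (πY := M.T.π) (holY := M.T.hol) M.embA (fun _ => rfl) (fun x g => M.holA x g)
  have h3 : M.ιA '' (M.incA ⁻¹' U) = M.r ⁻¹' U := by
    ext z
    constructor
    · rintro ⟨a, ha, rfl⟩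
      exact ha
    · intro hz
      obtain ⟨a, rfl⟩ := M.mem_rangeA.2 (hU _ hz)
      exact ⟨a, hz, rfl⟩
  rw [h3] at h2
  refine h2.congr ?_ ?_
  · intro z hz
    obtain ⟨a, rfl⟩ := M.mem_rangeA.2 (hU _ hz)
    rw [M.embA.injective.extend_apply]; rfl
  · intro z hz
    obtain ⟨a, rfl⟩ := M.mem_rangeA.2 (hU _ hz)
    rw [M.embA.injective.extend_apply]; rfl

theorem smoothAt_r {z : M.T.X} (hz : M.r z ∉ M.Z) (h : M.T.SmoothAt z) : S.SmoothAt (M.r z) := by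
  obtain ⟨U, u, v, t, hx, h0⟩ := S.model (M.r z)
  have h1 : IsModel S.π S.hol (U ∩ M.Zᶜ) u v t :=
    h0.mono (h0.isOpen.inter M.closed.isOpen_compl) inter_subset_left
  have h2 := isModel_lift (M := M) h1 fun x hx => hx.2
  have h3 := h.all (x := z) (show z ∈ M.r ⁻¹' (U ∩ M.Zᶜ) from ⟨hx, hz⟩) h2
  exact ⟨U, u, v, t, hx, h0, h3⟩

end Modif

variable {X₀ : Surf m} {L : Type} {P : L → (Fin m → ℂ) → X₀.X} {A : Set L}

/-- If the first label is at a smooth point, it can be dropped. -/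
theorem IsNeck.tail {σ : State X₀ P A} {c : Fin m → ℂ} {μ : L → L → (Fin m → ℂ) → ℂ} {j : L}
    {l : List L} {U : Set σ.F.S.X} {u v : σ.F.S.X → ℂ} {t : (Fin m → ℂ) → ℂ}
    (h : IsNeck σ c μ (j :: l) U u v t) (hs : σ.F.S.SmoothAt (σ.s j c)) :
    IsNeck σ c μ l U u v t where
  mod := h.mod
  node := h.node
  mem k hk := h.mem k (List.mem_cons_of_mem _ hk)
  rel := h.rel.tail
  off k hk hU h0 := by
    by_cases hkj : k = j
    · subst hkj
      rcases hs.all hU h.mod with h1 | h1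
      · exact h1 h0.1
      · exact h1 h0.2
    · exact h.off k (by simp [hkj, hk]) hU h0

/-- Transport of a neck through a modification whose centre avoids its labels. -/
theorem IsNeck.mod_lift {σ : State X₀ P A} {c : Fin m → ℂ} {μ : L → L → (Fin m → ℂ) → ℂ}
    {l : List L} {U : Set σ.F.S.X} {u v : σ.F.S.X → ℂ} {t : (Fin m → ℂ) → ℂ}
    (h : IsNeck σ c μ l U u v t) (hc : c ∈ σ.F.B) {N' : Surf m} {M : Modif σ.F.S N'} {hF : M.Fib}
    {s' : L → (Fin m → ℂ) → M.T.X} {hsec : ∀ j, IsSec M.T σ.F.B (s' j)}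
    {hrs : ∀ j, ∀ b ∈ σ.F.B, M.r (s' j b) = σ.s j b} {A' : Set L}
    {hsm : ∀ j ∈ A', ∀ b ∈ σ.F.B, M.T.SmoothAt (s' j b)}
    {hinj : ∀ i ∈ A', ∀ j ∈ A', ∀ b ∈ σ.F.B, s' i b = s' j b → i = j}
    {hZ : ∀ x ∈ M.Z, (∀ j, X₀.SmoothAt (P j (σ.F.S.π x))) →
      ¬ ∀ i j, P i (σ.F.S.π x) = P j (σ.F.S.π x) → i = j}
    (hl : ∀ k ∈ l, σ.s k c ∉ M.Z) :
    IsNeck (σ.mod M hF s' hsec hrs A' hsm hinj hZ) c μ l (M.r ⁻¹' (U ∩ M.Zᶜ)) (u ∘ M.r)
      (v ∘ M.r) t where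
  mod := Modif.isModel_lift (M := M)
    (h.mod.mono (h.mod.isOpen.inter M.closed.isOpen_compl) inter_subset_left) fun x hx => hx.2
  node x hx h1 h2 := h.node (M.r x) hx.1 h1 h2
  mem k hk := by
    change M.r (s' k c) ∈ U ∩ M.Zᶜ
    rw [hrs k c hc]
    exact ⟨h.mem k hk, hl k hk⟩
  rel := by
    refine h.rel.imp fun {i k} hik => ?_
    filter_upwards [hik, σ.F.openB.mem_nhds hc] with b h1 hb
    change u (M.r (s' k b)) = μ i k b * u (M.r (s' i b)) ∧
      v (M.r (s' i b)) = μ i k b * v (M.r (s' k b))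
    rw [hrs k b hb, hrs i b hb]
    exact h1
  off k hk hU h0 := by
    have h1 : M.r (s' k c) ∈ U ∩ M.Zᶜ := hU
    have h2 : u (M.r (s' k c)) = 0 ∧ v (M.r (s' k c)) = 0 := h0
    rw [hrs k c hc] at h1 h2
    exact h.off k hk h1.1 h2

end Vale.Agent.P273.H948
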