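import Vale.Agent.P273.H948.Surf

/-!
Gluing of two nodal surfaces along open subsets.
-/

noncomputable section

open Set Filter Topology

namespace Vale.Agent.P273.H948

variable {m : ℕ}

/-- Gluing data: open embeddings of a space `O` in both surfaces, compatible with the projections
and the holomorphic functions, with closed graph. -/
structure GlueData (A C : Surf m) where
  /-- the common open subset -/
  O : Type
  [top : TopologicalSpace O]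
  /-- the first embedding -/
  j₁ : O → A.X
  /-- the second embedding -/
  j₂ : O → C.X
  e₁ : IsOpenEmbedding j₁
  e₂ : IsOpenEmbedding j₂
  hπ : ∀ o, C.π (j₂ o) = A.π (j₁ o)
  hhol : ∀ (o : O) (g₁ : A.X → ℂ) (g₂ : C.X → ℂ), g₁ ∘ j₁ =ᶠ[𝓝 o] g₂ ∘ j₂ →
    (A.hol (j₁ o) g₁ ↔ C.hol (j₂ o) g₂)
  closed : IsClosed {p : A.X × C.X | ∃ o, j₁ o = p.1 ∧ j₂ o = p.2}

attribute [instance] GlueData.top

namespace GlueData

variable {A C : Surf m} (D : GlueData A C)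

/-- The glued space. -/
def Sp : Type := A.X ⊕ {c : C.X // c ∉ range D.j₂}

/-- The first inclusion. -/
def ι₁ (a : A.X) : D.Sp := Sum.inl a

open Classical in
/-- The second inclusion. -/
def ι₂ (c : C.X) : D.Sp :=
  if h : c ∈ range D.j₂ then Sum.inl (D.j₁ h.choose) else Sum.inr ⟨c, h⟩

instance : TopologicalSpace D.Sp :=
  TopologicalSpace.coinduced D.ι₁ inferInstance ⊔ TopologicalSpace.coinduced D.ι₂ inferInstance

theorem isOpen_iff (S : Set D.Sp) : IsOpen S ↔ IsOpen (D.ι₁ ⁻¹' S) ∧ IsOpen (D.ι₂ ⁻¹' S) := by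
  rw [← isOpen_coinduced, ← isOpen_coinduced]
  exact isOpen_sup (t₁ := TopologicalSpace.coinduced D.ι₁ inferInstance)
    (t₂ := TopologicalSpace.coinduced D.ι₂ inferInstance)

theorem ι₁_inj : Function.Injective D.ι₁ := Sum.inl_injective

theorem ι₂_j₂ (o : D.O) : D.ι₂ (D.j₂ o) = D.ι₁ (D.j₁ o) := by
  have h : D.j₂ o ∈ range D.j₂ := mem_range_self _
  have h1 : D.ι₂ (D.j₂ o) = Sum.inl (D.j₁ h.choose) := dif_pos h
  have h2 : h.choose = o := D.e₂.injective h.choose_spec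
  rw [h1, h2]; rfl

theorem ι₂_of_not_mem {c : C.X} (h : c ∉ range D.j₂) : D.ι₂ c = Sum.inr ⟨c, h⟩ := dif_neg h

theorem ι₁_eq_ι₂ {a : A.X} {c : C.X} : D.ι₁ a = D.ι₂ c ↔ ∃ o, D.j₁ o = a ∧ D.j₂ o = c := by
  constructor
  · intro h
    by_cases hc : c ∈ range D.j₂
    · obtain ⟨o, rfl⟩ := hc
      rw [D.ι₂_j₂] at h
      exact ⟨o, (D.ι₁_inj h).symm, rfl⟩
    · rw [D.ι₂_of_not_mem hc] at h
      exact absurd h (by simp [ι₁])
  · rintro ⟨o, rfl, rfl⟩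
    rw [D.ι₂_j₂]

theorem ι₂_inj : Function.Injective D.ι₂ := by
  intro c c' h
  by_cases hc : c ∈ range D.j₂
  · obtain ⟨o, rfl⟩ := hc
    rw [D.ι₂_j₂, ι₁_eq_ι₂] at h
    obtain ⟨o', h1, h2⟩ := h
    rw [← h2, D.e₁.injective h1]
  · by_cases hc' : c' ∈ range D.j₂
    · obtain ⟨o, rfl⟩ := hc'
      rw [D.ι₂_j₂, eq_comm, ι₁_eq_ι₂] at h
      obtain ⟨o', h1, h2⟩ := h
      rw [← h2, D.e₁.injective h1]
    · rw [D.ι₂_of_not_mem hc, D.ι₂_of_not_mem hc'] at h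
      exact congrArg Subtype.val (Sum.inr_injective h)

theorem cases (x : D.Sp) : (∃ a, D.ι₁ a = x) ∨ ∃ c, D.ι₂ c = x := by
  rcases x with a | ⟨c, h⟩
  · exact Or.inl ⟨a, rfl⟩
  · exact Or.inr ⟨c, D.ι₂_of_not_mem h⟩

theorem cont₁ : Continuous D.ι₁ := by
  rw [continuous_def]; intro S hS; exact ((D.isOpen_iff S).1 hS).1

theorem cont₂ : Continuous D.ι₂ := by
  rw [continuous_def]; intro S hS; exact ((D.isOpen_iff S).1 hS).2

theorem pre₁₂ (V : Set A.X) : D.ι₂ ⁻¹' (D.ι₁ '' V) = D.j₂ '' (D.j₁ ⁻¹' V) := by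
  ext c
  simp only [mem_preimage, mem_image]
  constructor
  · rintro ⟨a, ha, e⟩
    rw [ι₁_eq_ι₂] at e
    obtain ⟨o, rfl, rfl⟩ := e
    exact ⟨o, ha, rfl⟩
  · rintro ⟨o, h1, rfl⟩
    exact ⟨_, h1, (D.ι₂_j₂ o).symm⟩

theorem pre₂₁ (W : Set C.X) : D.ι₁ ⁻¹' (D.ι₂ '' W) = D.j₁ '' (D.j₂ ⁻¹' W) := by
  ext a
  simp only [mem_preimage, mem_image]
  constructor
  · rintro ⟨c, hc, e⟩
    rw [eq_comm, ι₁_eq_ι₂] at e
    obtain ⟨o, rfl, rfl⟩ := e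
    exact ⟨o, hc, rfl⟩
  · rintro ⟨o, h1, rfl⟩
    exact ⟨_, h1, D.ι₂_j₂ o⟩

theorem emb₁ : IsOpenEmbedding D.ι₁ := by
  refine .of_continuous_injective_isOpenMap D.cont₁ D.ι₁_inj ?_
  intro V hV
  rw [D.isOpen_iff, preimage_image_eq _ D.ι₁_inj, D.pre₁₂]
  exact ⟨hV, D.e₂.isOpenMap _ (hV.preimage D.e₁.continuous)⟩

theorem emb₂ : IsOpenEmbedding D.ι₂ := by
  refine .of_continuous_injective_isOpenMap D.cont₂ D.ι₂_inj ?_
  intro V hV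
  rw [D.isOpen_iff, preimage_image_eq _ D.ι₂_inj, D.pre₂₁]
  exact ⟨D.e₁.isOpenMap _ (hV.preimage D.e₂.continuous), hV⟩

theorem sep {a : A.X} {c : C.X} (h : D.ι₁ a ≠ D.ι₂ c) :
    ∃ V W : Set D.Sp, IsOpen V ∧ IsOpen W ∧ D.ι₁ a ∈ V ∧ D.ι₂ c ∈ W ∧ Disjoint V W := by
  have h1 : (a, c) ∈ {p : A.X × C.X | ∃ o, D.j₁ o = p.1 ∧ D.j₂ o = p.2}ᶜ := by
    intro h2; exact h (D.ι₁_eq_ι₂.2 h2)
  obtain ⟨V, W, hV, hW, haV, hcW, hVW⟩ := isOpen_prod_iff.1 D.closed.isOpen_compl a c h1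
  refine ⟨D.ι₁ '' V, D.ι₂ '' W, D.emb₁.isOpenMap _ hV, D.emb₂.isOpenMap _ hW,
    mem_image_of_mem _ haV, mem_image_of_mem _ hcW, ?_⟩
  rw [Set.disjoint_left]
  rintro _ ⟨a', ha', rfl⟩ ⟨c', hc', e⟩
  exact hVW (mk_mem_prod ha' hc') (D.ι₁_eq_ι₂.1 e.symm)

instance : T2Space D.Sp where
  t2 := by
    intro x y hxy
    rcases D.cases x with ⟨a, rfl⟩ | ⟨a, rfl⟩ <;> rcases D.cases y with ⟨c, rfl⟩ | ⟨c, rfl⟩
    · obtain ⟨V, W, hV, hW, h1, h2, h3⟩ := t2_separation (fun h => hxy (congrArg _ h) : a ≠ c)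
      exact ⟨_, _, D.emb₁.isOpenMap _ hV, D.emb₁.isOpenMap _ hW, mem_image_of_mem _ h1,
        mem_image_of_mem _ h2, (disjoint_image_iff D.ι₁_inj).2 h3⟩
    · exact D.sep hxy
    · obtain ⟨V, W, hV, hW, h1, h2, h3⟩ := D.sep hxy.symm
      exact ⟨W, V, hW, hV, h2, h1, h3.symm⟩
    · obtain ⟨V, W, hV, hW, h1, h2, h3⟩ := t2_separation (fun h => hxy (congrArg _ h) : a ≠ c)
      exact ⟨_, _, D.emb₂.isOpenMap _ hV, D.emb₂.isOpenMap _ hW, mem_image_of_mem _ h1,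
        mem_image_of_mem _ h2, (disjoint_image_iff D.ι₂_inj).2 h3⟩

theorem cont_iff {Y : Type} [TopologicalSpace Y] {f : D.Sp → Y} :
    Continuous f ↔ Continuous (f ∘ D.ι₁) ∧ Continuous (f ∘ D.ι₂) := by
  refine ⟨fun h => ⟨h.comp D.cont₁, h.comp D.cont₂⟩, fun h => ?_⟩
  rw [continuous_def]
  intro V hV
  rw [D.isOpen_iff]
  exact ⟨hV.preimage h.1, hV.preimage h.2⟩

/-- The projection. -/
def π (x : D.Sp) : Fin m → ℂ := Sum.elim A.π (fun c => C.π c.1) x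

theorem π₁ (a : A.X) : D.π (D.ι₁ a) = A.π a := rfl

theorem π₂ (c : C.X) : D.π (D.ι₂ c) = C.π c := by
  by_cases hc : c ∈ range D.j₂
  · obtain ⟨o, rfl⟩ := hc
    rw [D.ι₂_j₂, π₁, D.hπ]
  · rw [D.ι₂_of_not_mem hc]; rfl

/-- The holomorphic germs. -/
def hol (x : D.Sp) (g : D.Sp → ℂ) : Prop :=
  Sum.elim (fun a => A.hol a (g ∘ D.ι₁)) (fun c => C.hol c.1 (g ∘ D.ι₂)) x

theorem hol₁ (a : A.X) (g : D.Sp → ℂ) : D.hol (D.ι₁ a) g ↔ A.hol a (g ∘ D.ι₁) := Iff.rfl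

theorem hol₂ (c : C.X) (g : D.Sp → ℂ) : D.hol (D.ι₂ c) g ↔ C.hol c (g ∘ D.ι₂) := by
  by_cases hc : c ∈ range D.j₂
  · obtain ⟨o, rfl⟩ := hc
    rw [D.ι₂_j₂, hol₁]
    refine D.hhol o _ _ (Eventually.of_forall fun o' => ?_)
    simp only [Function.comp_apply, D.ι₂_j₂]
  · rw [D.ι₂_of_not_mem hc]; rfl

/-- The glued surface. -/
def glue : Surf m where
  X := D.Sp
  top := inferInstance
  t2 := inferInstance
  π := D.π
  hol := D.hol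
  model x := by
    rcases D.cases x with ⟨a, rfl⟩ | ⟨c, rfl⟩
    · obtain ⟨U, u, v, t, hx, h⟩ := A.model a
      exact ⟨_, _, _, t, mem_image_of_mem _ hx, h.image D.emb₁ D.π₁ D.hol₁⟩
    · obtain ⟨U, u, v, t, hx, h⟩ := C.model c
      exact ⟨_, _, _, t, mem_image_of_mem _ hx, h.image D.emb₂ D.π₂ D.hol₂⟩

end GlueData

end Vale.Agent.P273.H948
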