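import Vale.Agent.P273.H948.Moves

/-!
The invariant of the insertion process: necks (a local model with the remaining labels of a list,
in order, whose positions have analytic ratios) and the closure conditions of the induction.
-/

noncomputable section

open Set Filter Topology OnePoint

namespace Vale.Agent.P273.H948

open Vale.Agent.P273.H469

variable {m : ℕ} {X₀ : Surf m} {L : Type} {P : L → (Fin m → ℂ) → X₀.X} {A : Set L}

/-- Ratios of the positions of the labels of a list, in order; labels of the same type are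
distinct near `c`. -/
structure Ratios (c : Fin m → ℂ) (ty : L → Bool) (μ : L → L → (Fin m → ℂ) → ℂ) (l : List L) :
    Prop where
  nodup : l.Nodup
  an : l.Pairwise fun i k => AnalyticAt ℂ (μ i k) c
  ne : l.Pairwise fun i k => ty i = ty k → μ i k c ≠ 1
  co : ∀ i k p, [i, k, p].Sublist l → μ i p =ᶠ[𝓝 c] fun b => μ i k b * μ k p b

/-- A neck of the state near `c`: a model with the labels of the list `l` in order; the other
labels are not at its node. -/
structure IsNeck (σ : State X₀ P A) (c : Fin m → ℂ) (μ : L → L → (Fin m → ℂ) → ℂ) (l : List L)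
    (U : Set σ.F.S.X) (u v : σ.F.S.X → ℂ) (t : (Fin m → ℂ) → ℂ) : Prop where
  mod : IsModel σ.F.S.π σ.F.S.hol U u v t
  node : ∀ x ∈ U, u x = 0 → v x = 0 → ¬ X₀.SmoothAt (σ.r x)
  mem : ∀ j ∈ l, σ.s j c ∈ U
  rel : l.Pairwise fun i k => ∀ᶠ b in 𝓝 c,
    u (σ.s k b) = μ i k b * u (σ.s i b) ∧ v (σ.s i b) = μ i k b * v (σ.s k b)
  off : ∀ k, k ∉ l → σ.s k c ∈ U → ¬ (u (σ.s k c) = 0 ∧ v (σ.s k c) = 0)

/-- There is a neck with the labels of `l`. -/
def NeckOK (σ : State X₀ P A) (c : Fin m → ℂ) (μ : L → L → (Fin m → ℂ) → ℂ) (l : List L) : Prop :=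
  ∃ U u v t, IsNeck σ c μ l U u v t

/-- The invariant: the labels not yet inserted are distributed over the lists of the necks; two
labels of the same type coincide over `c` at a node only. -/
structure Inv (σ : State X₀ P A) (c : Fin m → ℂ) (ty : L → Bool)
    (μ : L → L → (Fin m → ℂ) → ℂ) {ι : Type} (ls : ι → List L) : Prop where
  mem : c ∈ σ.F.B
  neck : ∀ i, NeckOK σ c μ (ls i)
  rat : ∀ i, Ratios c ty μ (ls i)
  cov : ∀ j, j ∉ A → ∃ i, j ∈ ls i
  notA : ∀ i, ∀ j ∈ ls i, j ∉ A
  disj : ∀ i k, i ≠ k → ∀ j ∈ ls i, j ∉ ls k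
  nc : ∀ i k, i ≠ k → ty i = ty k → σ.s i c = σ.s k c → ¬ σ.F.S.SmoothAt (σ.s i c)

end Vale.Agent.P273.H948
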