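import Vale.Agent.P273.H948.State

/-!
Compact pieces of a chart: points of a chart near the centre stay in a compact subset of the chart.
-/

noncomputable section

open Set Filter Topology

namespace Vale.Agent.P273.H948

variable {m : ℕ}

/-- The preimage of a compact set under a coordinate map is compact. -/
theorem compact_chart {X F : Type} [TopologicalSpace X] [TopologicalSpace F] {E : X → F}
    {U : Set X} {M : Set F} (hinj : InjOn E U) (hU : IsOpen U) (hEM : ∀ y ∈ U, E y ∈ M)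
    (hn : ∀ y ∈ U, map E (𝓝 y) = 𝓝[M] (E y)) {D : Set F} (hD : IsCompact D) (hDU : D ⊆ E '' U) :
    IsCompact (U ∩ E ⁻¹' D) := by
  rw [isCompact_iff_ultrafilter_le_nhds]
  intro 𝒰 h𝒰
  rw [Filter.le_principal_iff] at h𝒰
  have hU𝒰 : U ∈ (𝒰 : Filter X) := mem_of_superset h𝒰 inter_subset_left
  have h1 : (𝒰.map E : Filter F) ≤ 𝓟 D := by
    rw [Ultrafilter.coe_map, Filter.le_principal_iff, Filter.mem_map]
    exact mem_of_superset h𝒰 inter_subset_right
  obtain ⟨p, hp, h2⟩ := isCompact_iff_ultrafilter_le_nhds.1 hD (𝒰.map E) h1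
  obtain ⟨y, hy, rfl⟩ := hDU hp
  have h3 : map E 𝒰 ≤ 𝓝[M] (E y) := by
    refine le_inf h2 ?_
    rw [Filter.le_principal_iff, Filter.mem_map]
    exact mem_of_superset hU𝒰 hEM
  rw [← hn y hy] at h3
  exact ⟨y, ⟨hy, hp⟩, (Filter.map_le_map_iff_of_injOn hU𝒰 (hU.mem_nhds hy) hinj).1 h3⟩

/-- Near a node of a model: the nodes of the chart over a small base stay in a compact subset. -/
theorem IsModel.near {X : Type} [TopologicalSpace X] {π : X → Fin m → ℂ}
    {hol : X → (X → ℂ) → Prop} {U : Set X} {u v : X → ℂ} {t : (Fin m → ℂ) → ℂ}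
    (h : IsModel π hol U u v t) {x₀ : X} (hx : x₀ ∈ U) :
    ∃ K, IsCompact K ∧ K ⊆ U ∧ ∃ B', IsOpen B' ∧ π x₀ ∈ B' ∧
      ∀ x ∈ U, π x ∈ B' → u x = u x₀ → v x = v x₀ → x ∈ K := by
  set p₀ := Emap π u v x₀ with hp₀
  have h1 : Emap π u v '' U ∈ 𝓝[Mset t] p₀ := by
    rw [← h.nhds x₀ hx]; exact image_mem_map (h.isOpen.mem_nhds hx)
  obtain ⟨W, hW, hW'⟩ := mem_nhdsWithin_iff_exists_mem_nhds_inter.1 h1
  have h2 : ∀ᶠ b in 𝓝 (π x₀), AnalyticAt ℂ t b := (h.an x₀ hx).eventually_analyticAt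
  have h3 : ∀ᶠ p : Amb m in 𝓝 p₀, AnalyticAt ℂ t p.1 := continuousAt_fst.eventually h2
  obtain ⟨ε, hε, hball⟩ := Metric.nhds_basis_closedBall.mem_iff.1 (inter_mem hW h3)
  set D : Set (Amb m) := Metric.closedBall p₀ ε ∩ Mset t with hD
  have hc : IsClosed D := by
    have hcont : ContinuousOn (fun p : Amb m => p.2.1 * p.2.2 - t p.1) (Metric.closedBall p₀ ε) := by
      intro p hp
      have hp' := (hball hp).2
      have : ContinuousAt (fun p : Amb m => t p.1) p :=
        ContinuousAt.comp (f := Prod.fst) (AnalyticAt.continuousAt hp') continuousAt_fst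
      exact ((by fun_prop : ContinuousAt (fun p : Amb m => p.2.1 * p.2.2) p).sub
        this).continuousWithinAt
    have := hcont.preimage_isClosed_of_isClosed Metric.isClosed_closedBall
      (isClosed_singleton (x := (0 : ℂ)))
    convert this using 1
    ext p
    simp only [hD, Mset, mem_inter_iff, mem_preimage, mem_singleton_iff, sub_eq_zero]
    rfl
  have hDc : IsCompact D :=
    (isCompact_closedBall p₀ ε).of_isClosed_subset hc inter_subset_left
  refine ⟨U ∩ Emap π u v ⁻¹' D, compact_chart h.inj h.isOpen (fun y hy => h.eqn y hy) h.nhds hDc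
    (fun p hp => hW' ⟨(hball hp.1).1, hp.2⟩), inter_subset_left, Metric.ball (π x₀) ε,
    Metric.isOpen_ball, Metric.mem_ball_self hε, ?_⟩
  intro x hxU hxB hu hv
  refine ⟨hxU, ?_, h.eqn x hxU⟩
  rw [Metric.mem_closedBall]
  have : dist (Emap π u v x) p₀ = dist (π x) (π x₀) := by
    simp only [hp₀, Emap, Prod.dist_eq, hu, hv, dist_self]
    simp [dist_nonneg]
  rw [this]
  exact (Metric.mem_ball.1 hxB).le

end Vale.Agent.P273.H948
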