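import Vale.Agent.P273.H948.RealData
import Vale.Agent.P273.H888.Real

/-!
From a good initial position of the labels to a family that realizes given curves with given marks.
-/

noncomputable section

open Set Filter Topology

namespace Vale.Agent.P273.H948

open Vale.Agent.P273.H183 (Fam tot startS)
open Vale.Agent.P273.H888 (posP Real)
open Vale.Agent.P273.H95 (E L pol)

instance finite_L : Finite L := by unfold H95.L; infer_instance

/-- **The curves `ψ` with the marks `σ` are realized near a good point.** -/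
theorem real_of_good {n : ℕ} {M : Type} [NormedAddCommGroup M] [NormedSpace ℂ M]
    {k : (Fin n → ℂ) ≃L[ℂ] M} {ψ : M → E} {S : L → Bool} {σ : M → L → ℂ} {W : Set (Fin n → ℂ)}
    [hne : Nonempty (tot W fun q => (ψ (k q)).1)] (hW : IsOpen W)
    (ha : ∀ b ∈ W, AnalyticAt ℂ (fun q => (ψ (k q)).1) b)
    (hK : ∀ b ∈ W, (ψ (k b)).1 ∈ H183.K6)
    (hz : ∀ j, ∀ b ∈ W, AnalyticAt ℂ (fun q => (ψ (k q)).2 j) b)
    (hv : ∀ j, ∀ b ∈ W, AnalyticAt ℂ (fun q => σ (k q) j) b)
    (he : ∀ j, ∀ b ∈ W, σ (k b) j ^ 2 = pol (S j) (ψ (k b)).1 ((ψ (k b)).2 j))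
    {Λ : H768.Lab L n} {c : Fin n → ℂ} (hc : c ∈ W)
    (hg : H768.Good (X₀ := startS W (fun q => (ψ (k q)).1) hW ha hK) Λ
      (startS W (fun q => (ψ (k q)).1) hW ha hK) id
      (fun j => posP (S j) (fun q => (ψ (k q)).2 j) (fun q => σ (k q) j)) c) :
    ∃ C : Fam L n, Real k ψ S σ C ∧ c ∈ C.B ∧ C.B ⊆ W := by
  obtain ⟨C, h1, h2, h3, r, h4⟩ := real_data hW ha hK hz hv he hc hg
  exact ⟨C, ⟨h3, ⟨W, hW, ha, hK, hne, r, h2, h4⟩, fun j b hb => hz j b (h2 hb),
    fun j b hb => hv j b (h2 hb), fun j b hb => he j b (h2 hb)⟩, h1, h2⟩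

end Vale.Agent.P273.H948
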