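import Vale.Agent.P273.H948.Surgery

/-!
Smooth points of the fibres of a nodal surface: independence of the model.
-/

noncomputable section

open Set Filter Topology

namespace Vale.Agent.P273.H948

variable {m : ℕ}

/-- `x` is a smooth point of its fibre. -/
def Surf.SmoothAt (S : Surf m) (x : S.X) : Prop :=
  ∃ U u v t, x ∈ U ∧ IsModel S.π S.hol U u v t ∧ (u x ≠ 0 ∨ v x ≠ 0)

/-- Exchange of the two coordinates of a model. -/
theorem IsModel.swap {X : Type} [TopologicalSpace X] {π : X → Fin m → ℂ}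
    {hol : X → (X → ℂ) → Prop} {U : Set X} {u v : X → ℂ} {t : (Fin m → ℂ) → ℂ}
    (h : IsModel π hol U u v t) : IsModel π hol U v u t := by
  have e : Amb m ≃ₜ Amb m := (Homeomorph.refl _).prodCongr (Homeomorph.prodComm ℂ ℂ)
  let σ : Amb m → Amb m := fun p => (p.1, p.2.2, p.2.1)
  have hσ : Continuous σ := by fun_prop
  have hσσ : ∀ p, σ (σ p) = p := fun p => rfl
  have hE : ∀ y, Emap π v u y = σ (Emap π u v y) := fun y => rfl
  have hE' : Emap π v u = σ ∘ Emap π u v := rfl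
  have hM : ∀ p, σ p ∈ Mset t ↔ p ∈ Mset (m := m) t := by
    intro p; simp only [Mset, mem_setOf_eq, σ]; rw [mul_comm]
  refine ⟨h.isOpen, ?_, ?_, h.an, ?_, ?_⟩
  · intro x hx y hy hxy
    rw [hE, hE] at hxy
    have := congrArg σ hxy
    rw [hσσ, hσσ] at this
    exact h.inj hx hy this
  · intro y hy; rw [mul_comm]; exact h.eqn y hy
  · intro y hy
    have hh : ∀ p, map σ (𝓝[Mset t] p) = 𝓝[Mset t] (σ p) := by
      intro p
      have h1 : ∀ q, map σ (𝓝[Mset t] q) ≤ 𝓝[Mset t] (σ q) := by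
        intro q
        refine tendsto_nhdsWithin_iff.2 ⟨(hσ.tendsto q).mono_left nhdsWithin_le_nhds, ?_⟩
        filter_upwards [self_mem_nhdsWithin] with z hz
        exact (hM z).2 hz
      refine le_antisymm (h1 p) ?_
      have h2 := Filter.map_mono (m := σ) (h1 (σ p))
      rw [hσσ, Filter.map_map] at h2
      have h3 : σ ∘ σ = id := funext hσσ
      rwa [h3, Filter.map_id] at h2
    rw [hE, hE', ← Filter.map_map, h.nhds y hy, hh]
  · intro y hy g
    rw [h.hol y hy]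
    have haσ : ∀ p, AnalyticAt ℂ σ p := fun p =>
      analyticAt_fst.prod ((AnalyticAt.comp (g := Prod.snd) analyticAt_snd analyticAt_snd).prod
        (AnalyticAt.comp (g := Prod.fst) analyticAt_fst analyticAt_snd))
    constructor
    · rintro ⟨k, hk, hk'⟩
      refine ⟨k ∘ σ, ?_, hk'⟩
      refine AnalyticAt.comp ?_ (haσ _)
      rw [hE, hσσ]; exact hk
    · rintro ⟨k, hk, hk'⟩
      refine ⟨k ∘ σ, ?_, hk'⟩
      refine AnalyticAt.comp ?_ (haσ _)
      rw [← hE]; exact hk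

/-- If a model has a nonzero coordinate at `x`, so has every model. -/
theorem Surf.smooth_model (S : Surf m) {x : S.X} {U : Set S.X} {u v : S.X → ℂ}
    {t : (Fin m → ℂ) → ℂ} (hx : x ∈ U) (h : IsModel S.π S.hol U u v t) (h0 : u x ≠ 0)
    {U' : Set S.X} {u' v' : S.X → ℂ} {t' : (Fin m → ℂ) → ℂ} (hx' : x ∈ U')
    (h' : IsModel S.π S.hol U' u' v' t') : u' x ≠ 0 ∨ v' x ≠ 0 := by
  by_contra hc
  push_neg at hc
  obtain ⟨hu', hv'⟩ := hc
  set b := S.π x with hb
  -- the parametrisation of the fibre by `u`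
  let γ : ℂ → Amb m := fun z => (b, z, t b / z)
  have hγ0 : γ (u x) = Emap S.π u v x := by
    simp only [γ, Emap]
    have := h.eqn x hx
    rw [← hb, ← this, mul_div_cancel_left₀ _ h0]
  have hγa : AnalyticAt ℂ γ (u x) :=
    analyticAt_const.prod (analyticAt_id.prod (analyticAt_const.div analyticAt_id h0))
  have hγM : ∀ᶠ z in 𝓝 (u x), γ z ∈ Mset t := by
    filter_upwards [isOpen_ne.mem_nhds h0] with z hz
    simp only [γ, Mset, mem_setOf_eq]
    exact mul_div_cancel₀ _ hz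
  obtain ⟨k₁, hk₁, e₁⟩ := (h.hol x hx u').1 (h'.hol_u hx')
  obtain ⟨k₂, hk₂, e₂⟩ := (h.hol x hx v').1 (h'.hol_v hx')
  have hU' : ∀ᶠ y in 𝓝 x, y ∈ U' := h'.isOpen.mem_nhds hx'
  -- near `x` on the fibre
  have key : ∀ᶠ z in 𝓝 (u x), ∃ y ∈ U', S.π y = b ∧ Emap S.π u v y = γ z ∧
      u' y = k₁ (γ z) ∧ v' y = k₂ (γ z) := by
    have h1 : ∀ᶠ p in 𝓝[Mset t] (Emap S.π u v x), ∃ y ∈ U', Emap S.π u v y = p ∧
        u' y = k₁ p ∧ v' y = k₂ p := by
      rw [← h.nhds x hx]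
      rw [Filter.eventually_map]
      filter_upwards [e₁, e₂, hU'] with y h1 h2 h3
      exact ⟨y, h3, rfl, h1, h2⟩
    have h2 : Tendsto γ (𝓝 (u x)) (𝓝[Mset t] (Emap S.π u v x)) := by
      refine tendsto_nhdsWithin_iff.2 ⟨?_, hγM⟩
      rw [← hγ0]; exact hγa.continuousAt
    filter_upwards [h2.eventually h1] with z ⟨y, hy, h3, h4, h5⟩
    exact ⟨y, hy, congrArg Prod.fst h3, h3, h4, h5⟩
  have hg₁ : AnalyticAt ℂ (k₁ ∘ γ) (u x) := AnalyticAt.comp (by rw [hγ0]; exact hk₁) hγa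
  have hg₂ : AnalyticAt ℂ (k₂ ∘ γ) (u x) := AnalyticAt.comp (by rw [hγ0]; exact hk₂) hγa
  have ht' : t' b = 0 := by
    have := h'.eqn x hx'; rw [hu', zero_mul] at this; exact this.symm
  have hprod : ∀ᶠ z in 𝓝 (u x), (k₁ ∘ γ) z * (k₂ ∘ γ) z = 0 := by
    filter_upwards [key] with z ⟨y, hy, h3, h4, h5, h6⟩
    have := h'.eqn y hy
    rw [h3, ht', h5, h6] at this
    exact this
  have hz : (∀ᶠ z in 𝓝 (u x), (k₁ ∘ γ) z = 0) ∨ ∀ᶠ z in 𝓝 (u x), (k₂ ∘ γ) z = 0 := by
    rcases hg₁.eventually_eq_zero_or_eventually_ne_zero with h1 | h1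
    · exact Or.inl h1
    · right
      rcases hg₂.eventually_eq_zero_or_eventually_ne_zero with h2 | h2
      · exact h2
      · exfalso
        have h3 : ∀ᶠ z in 𝓝[≠] (u x), False := by
          filter_upwards [h1, h2, hprod.filter_mono nhdsWithin_le_nhds] with z a1 a2 a3
          exact (mul_ne_zero a1 a2) a3
        exact (Filter.eventually_false_iff_eq_bot.1 h3 : 𝓝[≠] (u x) = ⊥) |>
          fun h => (NormedField.nhdsNE_neBot (u x)).ne h
  -- near `x` every point of the fibre is of the form `γ z`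
  have hback : ∀ᶠ y in 𝓝 x, S.π y = b → Emap S.π u v y = γ (u y) := by
    filter_upwards [h.isOpen.mem_nhds hx, (h.cont_u hx) (isOpen_ne.mem_nhds h0)] with y hy hy0 hyb
    simp only [γ, Emap, hyb]
    have := h.eqn y hy
    rw [hyb] at this
    rw [← this, mul_div_cancel_left₀ _ hy0]
  have hside : (∀ᶠ y in 𝓝 x, S.π y = b → u' y = 0) ∨ ∀ᶠ y in 𝓝 x, S.π y = b → v' y = 0 := by
    rcases hz with h1 | h1
    · left
      filter_upwards [hback, e₁, (h.cont_u hx).eventually h1] with y h2 h3 h4 h5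
      rw [h3, Function.comp_apply, h2 h5]; exact h4
    · right
      filter_upwards [hback, e₂, (h.cont_u hx).eventually h1] with y h2 h3 h4 h5
      rw [h3, Function.comp_apply, h2 h5]; exact h4
  -- contradiction with the second model
  have hM' : ∀ z : ℂ, ((b, z, 0) : Amb m) ∈ Mset t' ∧ ((b, 0, z) : Amb m) ∈ Mset t' := by
    intro z; simp [Mset, ht']
  have hE0 : Emap S.π u' v' x = (b, 0, 0) := by simp [Emap, hu', hv', ← hb]
  have hne : (𝓝[≠] (0 : ℂ)).NeBot := inferInstance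
  rcases hside with h1 | h1
  · have h2 : ∀ᶠ p in 𝓝[Mset t'] (Emap S.π u' v' x), p.1 = b → p.2.1 = 0 := by
      rw [← h'.nhds x hx', Filter.eventually_map]; exact h1
    have h3 : Tendsto (fun z : ℂ => ((b, z, 0) : Amb m)) (𝓝[≠] 0)
        (𝓝[Mset t'] (Emap S.π u' v' x)) := by
      refine tendsto_nhdsWithin_iff.2 ⟨?_, Eventually.of_forall fun z => (hM' z).1⟩
      rw [hE0]
      exact ((by fun_prop : Continuous fun z : ℂ => ((b, z, 0) : Amb m)).tendsto 0).mono_left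
        nhdsWithin_le_nhds
    have h4 := (h3.eventually h2).and self_mem_nhdsWithin
    obtain ⟨z, h5, h6⟩ := h4.exists
    exact h6 (h5 rfl)
  · have h2 : ∀ᶠ p in 𝓝[Mset t'] (Emap S.π u' v' x), p.1 = b → p.2.2 = 0 := by
      rw [← h'.nhds x hx', Filter.eventually_map]; exact h1
    have h3 : Tendsto (fun z : ℂ => ((b, 0, z) : Amb m)) (𝓝[≠] 0)
        (𝓝[Mset t'] (Emap S.π u' v' x)) := by
      refine tendsto_nhdsWithin_iff.2 ⟨?_, Eventually.of_forall fun z => (hM' z).2⟩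
      rw [hE0]
      exact ((by fun_prop : Continuous fun z : ℂ => ((b, 0, z) : Amb m)).tendsto 0).mono_left
        nhdsWithin_le_nhds
    have h4 := (h3.eventually h2).and self_mem_nhdsWithin
    obtain ⟨z, h5, h6⟩ := h4.exists
    exact h6 (h5 rfl)

theorem Surf.SmoothAt.all {S : Surf m} {x : S.X} (h : S.SmoothAt x) {U : Set S.X}
    {u v : S.X → ℂ} {t : (Fin m → ℂ) → ℂ} (hx : x ∈ U) (h' : IsModel S.π S.hol U u v t) :
    u x ≠ 0 ∨ v x ≠ 0 := by
  obtain ⟨U₁, u₁, v₁, t₁, hx₁, h₁, h0 | h0⟩ := h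
  · exact S.smooth_model hx₁ h₁ h0 hx h'
  · exact S.smooth_model hx₁ h₁.swap h0 hx h'

end Vale.Agent.P273.H948
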