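import Mathlib

/-!
Nodal surfaces over open subsets of `ℂ^m` (families of nodal curves, not necessarily proper) with
local models `u v = t(b)`: open embeddings, restriction.
-/

noncomputable section

open Set Filter Topology

namespace Vale.Agent.P273.H948

/-- The ambient space of the local models. -/
abbrev Amb (m : ℕ) : Type := (Fin m → ℂ) × ℂ × ℂ

/-- The local model `u v = t(b)`. -/
def Mset {m : ℕ} (t : (Fin m → ℂ) → ℂ) : Set (Amb m) := {p | p.2.1 * p.2.2 = t p.1}

/-- The coordinate map of a local model. -/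
def Emap {m : ℕ} {X : Type} (π : X → Fin m → ℂ) (u v : X → ℂ) (x : X) : Amb m := (π x, u x, v x)

/-- `(U, u, v, t)` is a local model of the surface `π : X → B` with the holomorphic germs `hol`. -/
structure IsModel {m : ℕ} {X : Type} [TopologicalSpace X]
    (π : X → Fin m → ℂ) (hol : X → (X → ℂ) → Prop) (U : Set X) (u v : X → ℂ)
    (t : (Fin m → ℂ) → ℂ) : Prop where
  isOpen : IsOpen U
  inj : InjOn (Emap π u v) U
  eqn : ∀ y ∈ U, u y * v y = t (π y)
  an : ∀ y ∈ U, AnalyticAt ℂ t (π y)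
  nhds : ∀ y ∈ U, map (Emap π u v) (𝓝 y) = 𝓝[Mset t] (Emap π u v y)
  hol : ∀ y ∈ U, ∀ g : X → ℂ, hol y g ↔
    ∃ h : Amb m → ℂ, AnalyticAt ℂ h (Emap π u v y) ∧ g =ᶠ[𝓝 y] h ∘ Emap π u v

/-- A nodal surface over (a part of) `ℂ^m`. -/
structure Surf (m : ℕ) where
  /-- the total space -/
  X : Type
  /-- its topology -/
  top : TopologicalSpace X
  t2 : T2Space X
  /-- the projection -/
  π : X → Fin m → ℂ
  /-- `hol x g`: `g` is holomorphic at `x` -/
  hol : X → (X → ℂ) → Prop
  model : ∀ x, ∃ U u v t, x ∈ U ∧ IsModel π hol U u v t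

attribute [instance] Surf.top Surf.t2

theorem an_b {m : ℕ} (p : Amb m) : AnalyticAt ℂ (fun p : Amb m => p.1) p := analyticAt_fst

theorem an_bi {m : ℕ} (i : Fin m) (p : Amb m) : AnalyticAt ℂ (fun p : Amb m => p.1 i) p :=
  ((ContinuousLinearMap.proj (R := ℂ) (φ := fun _ : Fin m => ℂ) i).analyticAt _).comp analyticAt_fst

theorem an_u {m : ℕ} (p : Amb m) : AnalyticAt ℂ (fun p : Amb m => p.2.1) p :=
  AnalyticAt.comp (g := Prod.fst) analyticAt_fst analyticAt_snd

theorem an_v {m : ℕ} (p : Amb m) : AnalyticAt ℂ (fun p : Amb m => p.2.2) p :=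
  AnalyticAt.comp (g := Prod.snd) analyticAt_snd analyticAt_snd

namespace IsModel

variable {m : ℕ} {X : Type} [TopologicalSpace X] {π : X → Fin m → ℂ}
  {hol : X → (X → ℂ) → Prop} {U : Set X} {u v : X → ℂ} {t : (Fin m → ℂ) → ℂ}

theorem cont (h : IsModel π hol U u v t) {y : X} (hy : y ∈ U) :
    ContinuousAt (Emap π u v) y := by
  have := h.nhds y hy
  exact this.le.trans nhdsWithin_le_nhds

theorem cont_π (h : IsModel π hol U u v t) {y : X} (hy : y ∈ U) : ContinuousAt π y :=
  continuousAt_fst.comp (h.cont hy)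

theorem cont_u (h : IsModel π hol U u v t) {y : X} (hy : y ∈ U) : ContinuousAt u y :=
  (continuousAt_fst.comp continuousAt_snd).comp (h.cont hy)

theorem cont_v (h : IsModel π hol U u v t) {y : X} (hy : y ∈ U) : ContinuousAt v y :=
  (continuousAt_snd.comp continuousAt_snd).comp (h.cont hy)

theorem hol_u (h : IsModel π hol U u v t) {y : X} (hy : y ∈ U) : hol y u :=
  (h.hol y hy u).2 ⟨fun p => p.2.1, an_u _, Eventually.of_forall fun _ => rfl⟩

theorem hol_v (h : IsModel π hol U u v t) {y : X} (hy : y ∈ U) : hol y v :=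
  (h.hol y hy v).2 ⟨fun p => p.2.2, an_v _, Eventually.of_forall fun _ => rfl⟩

theorem hol_π (h : IsModel π hol U u v t) {y : X} (hy : y ∈ U) (i : Fin m) :
    hol y (fun x => π x i) :=
  (h.hol y hy _).2 ⟨fun p => p.1 i, an_bi i _, Eventually.of_forall fun _ => rfl⟩

theorem hol_congr (h : IsModel π hol U u v t) {y : X} (hy : y ∈ U) {g g' : X → ℂ}
    (hg : hol y g) (e : g' =ᶠ[𝓝 y] g) : hol y g' := by
  obtain ⟨k, hk, hk'⟩ := (h.hol y hy g).1 hg
  exact (h.hol y hy g').2 ⟨k, hk, e.trans hk'⟩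

theorem mono (h : IsModel π hol U u v t) {V : Set X} (hV : IsOpen V) (hVU : V ⊆ U) :
    IsModel π hol V u v t where
  isOpen := hV
  inj := h.inj.mono hVU
  eqn y hy := h.eqn y (hVU hy)
  an y hy := h.an y (hVU hy)
  nhds y hy := h.nhds y (hVU hy)
  hol y hy := h.hol y (hVU hy)

/-- Image of a model under an open embedding. -/
theorem image {Y : Type} [TopologicalSpace Y] {πY : Y → Fin m → ℂ} {holY : Y → (Y → ℂ) → Prop}
    {ι : X → Y} (hι : IsOpenEmbedding ι) (hπ : ∀ x, πY (ι x) = π x)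
    (hh : ∀ x g, holY (ι x) g ↔ hol x (g ∘ ι)) (h : IsModel π hol U u v t) :
    IsModel πY holY (ι '' U) (Function.extend ι u 0) (Function.extend ι v 0) t := by
  have eu : ∀ x, Function.extend ι u 0 (ι x) = u x := fun x => hι.injective.extend_apply _ _ _
  have ev : ∀ x, Function.extend ι v 0 (ι x) = v x := fun x => hι.injective.extend_apply _ _ _
  have eE : ∀ x, Emap πY (Function.extend ι u 0) (Function.extend ι v 0) (ι x) = Emap π u v x := by
    intro x; simp only [Emap, eu, ev, hπ]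
  have eE' : Emap πY (Function.extend ι u 0) (Function.extend ι v 0) ∘ ι = Emap π u v :=
    funext eE
  refine ⟨hι.isOpenMap _ h.isOpen, ?_, ?_, ?_, ?_, ?_⟩
  · rintro _ ⟨x, hx, rfl⟩ _ ⟨y, hy, rfl⟩ hxy
    rw [eE, eE] at hxy
    rw [h.inj hx hy hxy]
  · rintro _ ⟨x, hx, rfl⟩
    rw [eu, ev, hπ]; exact h.eqn x hx
  · rintro _ ⟨x, hx, rfl⟩
    rw [hπ]; exact h.an x hx
  · rintro _ ⟨x, hx, rfl⟩
    rw [← hι.map_nhds_eq, Filter.map_map, eE', eE]; exact h.nhds x hx
  · rintro _ ⟨x, hx, rfl⟩ g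
    rw [hh, h.hol x hx, eE]
    refine exists_congr fun k => and_congr_right fun _ => ?_
    rw [← hι.map_nhds_eq, Filter.EventuallyEq, Filter.EventuallyEq, Filter.eventually_map]
    refine eventually_congr (Eventually.of_forall fun y => ?_)
    simp only [Function.comp_apply, eE]

/-- Preimage of a model under an open embedding. -/
theorem preimage {Y : Type} [TopologicalSpace Y] {πY : Y → Fin m → ℂ}
    {holY : Y → (Y → ℂ) → Prop} {ι : Y → X} (hι : IsOpenEmbedding ι) (hπ : ∀ x, π (ι x) = πY x)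
    (hh : ∀ y g, holY y g ↔ ∃ g' , hol (ι y) g' ∧ g =ᶠ[𝓝 y] g' ∘ ι)
    (h : IsModel π hol U u v t) :
    IsModel πY holY (ι ⁻¹' U) (u ∘ ι) (v ∘ ι) t := by
  have eE : ∀ y, Emap πY (u ∘ ι) (v ∘ ι) y = Emap π u v (ι y) := by
    intro x; simp only [Emap, hπ, Function.comp]
  have eE' : Emap πY (u ∘ ι) (v ∘ ι) = Emap π u v ∘ ι := funext eE
  refine ⟨h.isOpen.preimage hι.continuous, ?_, ?_, ?_, ?_, ?_⟩
  · intro x hx y hy hxy
    rw [eE, eE] at hxy
    exact hι.injective (h.inj hx hy hxy)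
  · intro y hy; rw [← hπ]; exact h.eqn _ hy
  · intro y hy; rw [← hπ]; exact h.an _ hy
  · intro y hy
    rw [eE', ← Filter.map_map, hι.map_nhds_eq]; exact h.nhds _ hy
  · intro y hy g
    rw [hh]
    constructor
    · rintro ⟨g', hg', e⟩
      obtain ⟨k, hk, hk'⟩ := (h.hol _ hy g').1 hg'
      refine ⟨k, by rw [eE]; exact hk, e.trans ?_⟩
      rw [eE']
      exact (hι.continuous.tendsto y).eventually hk'
    · rintro ⟨k, hk, hk'⟩
      rw [eE] at hk
      exact ⟨k ∘ Emap π u v, (h.hol _ hy _).2 ⟨k, hk, EventuallyEq.rfl⟩, by rw [eE'] at hk'; exact hk'⟩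

end IsModel

namespace Surf

variable {m : ℕ} (S : Surf m)

theorem cont_π : Continuous S.π := by
  rw [continuous_iff_continuousAt]
  intro x
  obtain ⟨U, u, v, t, hx, h⟩ := S.model x
  exact h.cont_π hx

theorem hol_congr {x : S.X} {g g' : S.X → ℂ} (hg : S.hol x g) (e : g' =ᶠ[𝓝 x] g) :
    S.hol x g' := by
  obtain ⟨U, u, v, t, hx, h⟩ := S.model x
  exact h.hol_congr hx hg e

theorem hol_congr_iff {x : S.X} {g g' : S.X → ℂ} (e : g' =ᶠ[𝓝 x] g) :
    S.hol x g' ↔ S.hol x g := ⟨fun h => S.hol_congr h e.symm, fun h => S.hol_congr h e⟩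

/-- The open subsurface on the open set `O`. -/
def restrict (O : Set S.X) (hO : IsOpen O) : Surf m where
  X := O
  top := inferInstance
  t2 := inferInstance
  π x := S.π x
  hol x g := ∃ g', S.hol x g' ∧ g =ᶠ[𝓝 x] g' ∘ Subtype.val
  model x := by
    obtain ⟨U, u, v, t, hx, h⟩ := S.model x
    exact ⟨_, _, _, t, hx, h.preimage (ι := Subtype.val) hO.isOpenEmbedding_subtypeVal
      (fun _ => rfl) (fun _ _ => Iff.rfl)⟩

section restrict

variable {S} {O : Set S.X} {hO : IsOpen O}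

/-- The inclusion of an open subsurface. -/
def inc (x : (S.restrict O hO).X) : S.X := Subtype.val x

/-- A point of an open subsurface. -/
def toSub (hO : IsOpen O) (x : S.X) (hx : x ∈ O) : (S.restrict O hO).X := ⟨x, hx⟩

theorem inc_mem (x : (S.restrict O hO).X) : inc x ∈ O := Subtype.property x

theorem inc_toSub (x : S.X) (hx : x ∈ O) : inc (toSub hO x hx) = x := rfl

theorem toSub_inc (x : (S.restrict O hO).X) (hx : inc x ∈ O) : toSub hO (inc x) hx = x := rfl

theorem inc_emb : IsOpenEmbedding (inc : (S.restrict O hO).X → S.X) :=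
  hO.isOpenEmbedding_subtypeVal

theorem range_inc : range (inc : (S.restrict O hO).X → S.X) = O := Subtype.range_coe

theorem inc_inj : Function.Injective (inc : (S.restrict O hO).X → S.X) := inc_emb.injective

theorem inc_π (x : (S.restrict O hO).X) : S.π (inc x) = (S.restrict O hO).π x := rfl

theorem cont_toSub {Y : Type} [TopologicalSpace Y] {f : Y → S.X} (hf : Continuous f)
    (hm : ∀ y, f y ∈ O) : Continuous fun y => toSub hO (f y) (hm y) :=
  Continuous.subtype_mk hf hm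

theorem restrict_hol (x : (S.restrict O hO).X) (g : (S.restrict O hO).X → ℂ) :
    (S.restrict O hO).hol x g ↔ ∃ g', S.hol (inc x) g' ∧ g =ᶠ[𝓝 x] g' ∘ inc := Iff.rfl

theorem restrict_hol_comp (x : (S.restrict O hO).X) (g : S.X → ℂ) :
    (S.restrict O hO).hol x (g ∘ inc) ↔ S.hol (inc x) g := by
  constructor
  · rintro ⟨g', hg', e⟩
    refine S.hol_congr hg' ?_
    rw [← inc_emb.map_nhds_eq]
    exact e
  · intro h
    exact ⟨g, h, EventuallyEq.rfl⟩

end restrict

end Surf

end Vale.Agent.P273.H948
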