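import Vale.Agent.P273.H948.Moves

/-!
The induction of the insertion process: labels are inserted one after the other, at smooth points
(also when they collide with one inserted mark) and at nodes (in the order of the ranks).
(768's `Word.lean`, with fixed models of the start surface: every node of the process lies over one
of them, with the same second coordinate.)
-/

noncomputable section

open Set Filter Topology

namespace Vale.Agent.P273.H948

variable {m : ℕ} {X₀ : Surf m} {L : Type} {P : L → (Fin m → ℂ) → X₀.X}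

/-- Fixed models of the start surface. -/
structure Mods (X₀ : Surf m) where
  /-- the index set -/
  ι : Type
  /-- the domains -/
  UU : ι → Set X₀.X
  /-- the first coordinates -/
  uu : ι → X₀.X → ℂ
  /-- the second coordinates -/
  vv : ι → X₀.X → ℂ
  /-- the parameters -/
  tt : ι → (Fin m → ℂ) → ℂ
  mod : ∀ i, IsModel X₀.π X₀.hol (UU i) (uu i) (vv i) (tt i)

/-- The chart `(U, u, v)` lies over the model `i` of the start surface. -/
def Mods.Over (K : Mods X₀) (i : K.ι) {Y : Type} (r : Y → X₀.X) (U : Set Y) (u v : Y → ℂ) : Prop :=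
  ∀ x ∈ U, r x ∈ K.UU i ∧ v x = K.vv i (r x) ∧ (u x = 0 → K.uu i (r x) = 0)

theorem Mods.Over.not_smooth {K : Mods X₀} {i : K.ι} {Y : Type} {r : Y → X₀.X} {U : Set Y}
    {u v : Y → ℂ} (h : K.Over i r U u v) {x : Y} (hx : x ∈ U) (hu : u x = 0) (hv : v x = 0) :
    ¬ X₀.SmoothAt (r x) := by
  intro hs
  obtain ⟨h1, h2, h3⟩ := h x hx
  rcases hs.all h1 (K.mod i) with h4 | h4
  · exact h4 (h3 hu)
  · exact h4 (by rw [← h2]; exact hv)

theorem Mods.Over.comp {K : Mods X₀} {i : K.ι} {Y : Type} {r : Y → X₀.X} {U : Set Y}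
    {u v : Y → ℂ} (h : K.Over i r U u v) {Y' : Type} {ϖ : Y' → Y} {r' : Y' → X₀.X}
    (hr : ∀ x, r' x = r (ϖ x)) {U' : Set Y'} (hU : ∀ x ∈ U', ϖ x ∈ U) :
    K.Over i r' U' (u ∘ ϖ) (v ∘ ϖ) := by
  intro x hx
  rw [hr]
  exact h (ϖ x) (hU x hx)

/-- Types, ranks and transition factors of the labels. -/
structure Lab (L : Type) (m : ℕ) where
  /-- type -/
  typ : L → Bool
  /-- rank -/
  rk : L → ℕ
  /-- transition factor -/
  μ : L → L → (Fin m → ℂ) → ℂ

variable (Λ : Lab L m) (K : Mods X₀)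

/-- The conditions on the labels at one node. -/
structure Lab.OK (T : Set L) (c : Fin m → ℂ) : Prop where
  inj : ∀ k ∈ T, ∀ l ∈ T, Λ.rk k = Λ.rk l → k = l
  an : ∀ k ∈ T, ∀ l ∈ T, Λ.rk k < Λ.rk l → AnalyticAt ℂ (Λ.μ k l) c
  coc : ∀ k ∈ T, ∀ l ∈ T, ∀ n ∈ T, Λ.rk k < Λ.rk l → Λ.rk l < Λ.rk n →
    ∀ᶠ b in 𝓝 c, Λ.μ k n b = Λ.μ k l b * Λ.μ l n b
  one : ∀ k ∈ T, ∀ l ∈ T, Λ.rk k < Λ.rk l → Λ.μ k l c = 1 → Λ.typ k ≠ Λ.typ l

variable {Λ}

theorem Lab.OK.mono {T T' : Set L} {c : Fin m → ℂ} (h : Λ.OK T c) (hT : T' ⊆ T) : Λ.OK T' c where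
  inj k hk l hl := h.inj k (hT hk) l (hT hl)
  an k hk l hl := h.an k (hT hk) l (hT hl)
  coc k hk l hl n hn := h.coc k (hT hk) l (hT hl) n (hT hn)
  one k hk l hl := h.one k (hT hk) l (hT hl)

variable (Λ)

/-- The label `j` is at a smooth point of the fibre over `c`, and only labels of the other type are
at the same point. -/
def Sm (S : Surf m) (s : L → (Fin m → ℂ) → S.X) (c : Fin m → ℂ) (j : L) : Prop :=
  S.SmoothAt (s j c) ∧ ∀ i, i ≠ j → s i c = s j c → Λ.typ i ≠ Λ.typ j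

/-- The point `x` is a node, and the labels at `x` are ordered by their ranks. -/
def Nd (S : Surf m) (s : L → (Fin m → ℂ) → S.X) (r : S.X → X₀.X) (c : Fin m → ℂ) (x : S.X) :
    Prop :=
  Λ.OK {k | s k c = x} c ∧ ∃ i U u v t, x ∈ U ∧ IsModel S.π S.hol U u v t ∧ K.Over i r U u v ∧
    u x = 0 ∧ v x = 0 ∧ ∀ k l, s k c = x → s l c = x → Λ.rk k < Λ.rk l →
      ∀ᶠ b in 𝓝 c, u (s l b) = Λ.μ k l b * u (s k b) ∧ v (s k b) = Λ.μ k l b * v (s l b)

/-- Each label is at a smooth point or at a node in the good way. -/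
def Good (S : Surf m) (s : L → (Fin m → ℂ) → S.X) (r : S.X → X₀.X) (c : Fin m → ℂ) : Prop :=
  ∀ j, Sm Λ S s c j ∨ Nd Λ K S s r c (s j c)

variable {Λ K}

/-- The family `S'` is obtained from `S` by a modification outside of which, near the fibre over
`c`, nothing changes; `Z` is the centre of the modification (in the fibre over `c`). -/
structure Trans (S S' : Surf m) (s : L → (Fin m → ℂ) → S.X) (s' : L → (Fin m → ℂ) → S'.X)
    (r : S.X → X₀.X) (r' : S'.X → X₀.X) (c : Fin m → ℂ) (Z : Set S.X) (ϖ : S'.X → S.X) : Prop where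
  r_eq : ∀ x, r' x = r (ϖ x)
  sec : ∀ k, ∀ᶠ b in 𝓝 c, ϖ (s' k b) = s k b
  model : ∀ k, s k c ∉ Z → ∀ U u v t, IsModel S.π S.hol U u v t → s k c ∈ U →
    ∃ U', s' k c ∈ U' ∧ (∀ x ∈ U', ϖ x ∈ U) ∧ IsModel S'.π S'.hol U' (u ∘ ϖ) (v ∘ ϖ) t
  inj : ∀ k l, s k c = s l c → s k c ∉ Z → s' k c = s' l c

namespace Trans

variable {S S' : Surf m} {s : L → (Fin m → ℂ) → S.X} {s' : L → (Fin m → ℂ) → S'.X}
    {r : S.X → X₀.X} {r' : S'.X → X₀.X} {c : Fin m → ℂ} {Z : Set S.X} {ϖ : S'.X → S.X}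
    (h : Trans S S' s s' r r' c Z ϖ)

include h

theorem at_c (k : L) : ϖ (s' k c) = s k c := (h.sec k).self_of_nhds

theorem smooth {k : L} (hk : s k c ∉ Z) (hs : S.SmoothAt (s k c)) : S'.SmoothAt (s' k c) := by
  obtain ⟨U, u, v, t, hx, hm, h0⟩ := hs
  obtain ⟨U', h1, -, h2⟩ := h.model k hk U u v t hm hx
  refine ⟨U', _, _, t, h1, h2, ?_⟩
  simpa only [Function.comp, h.at_c] using h0

theorem eq_iff {k l : L} (hk : s k c ∉ Z) : s' k c = s' l c ↔ s k c = s l c := by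
  constructor
  · intro he
    rw [← h.at_c k, ← h.at_c l, he]
  · intro he
    exact h.inj k l he hk

theorem sm {k : L} (hk : s k c ∉ Z) (hs : Sm Λ S s c k) : Sm Λ S' s' c k := by
  refine ⟨h.smooth hk hs.1, fun i hi he => hs.2 i hi ?_⟩
  exact ((h.eq_iff hk).1 he.symm).symm

theorem nd {k : L} (hk : s k c ∉ Z) (hs : Nd Λ K S s r c (s k c)) :
    Nd Λ K S' s' r' c (s' k c) := by
  obtain ⟨h1, i, U, u, v, t, hx, hm, ho, hu, hv, hr⟩ := hs
  have hset : ∀ l, s' l c = s' k c → s l c = s k c := fun l hl =>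
    ((h.eq_iff hk).1 hl.symm).symm
  obtain ⟨U', h2, h2', h3⟩ := h.model k hk U u v t hm hx
  refine ⟨h1.mono fun l hl => hset l hl, i, U', _, _, t, h2, h3, ho.comp h.r_eq h2', ?_, ?_, ?_⟩
  · simpa only [Function.comp, h.at_c] using hu
  · simpa only [Function.comp, h.at_c] using hv
  · intro a b ha hb hab
    filter_upwards [hr a b (hset a ha) (hset b hb) hab, h.sec a, h.sec b] with y h4 h5 h6
    simp only [Function.comp, h5, h6]
    exact h4

theorem good_off {k : L} (hk : s k c ∉ Z) (hs : Sm Λ S s c k ∨ Nd Λ K S s r c (s k c)) :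
    Sm Λ S' s' c k ∨ Nd Λ K S' s' r' c (s' k c) :=
  hs.imp (h.sm hk) (h.nd hk)

end Trans

/-- A marked point is not a node of a model. -/
theorem not_smooth {S : Surf m} {x : S.X} (hs : S.SmoothAt x) {U : Set S.X} {u v : S.X → ℂ}
    {t : (Fin m → ℂ) → ℂ} (hm : IsModel S.π S.hol U u v t) (hx : x ∈ U) (hu : u x = 0)
    (hv : v x = 0) : False := by
  rcases hs.all hx hm with h | h
  · exact h hu
  · exact h hv

variable (X₀ P)

/-- A property of states. -/
abbrev Motive : Type 1 := ∀ A : Set L, State X₀ P A → Prop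

variable {X₀ P}

/-- Insertion at a free smooth point. -/
def StepAdd (c : Fin m → ℂ) (Q : Motive X₀ P) : Prop := ∀ (A : Set L) (σ : State X₀ P A) (j : L),
  c ∈ σ.F.B → Q A σ → j ∉ A → σ.F.S.SmoothAt (σ.s j c) → (∀ i ∈ A, σ.s i c ≠ σ.s j c) →
  ∃ σ' : State X₀ P (insert j A), c ∈ σ'.F.B ∧ σ'.F.B ⊆ σ.F.B ∧ Q _ σ' ∧
    ∃ ϖ, Trans σ.F.S σ'.F.S σ.s σ'.s σ.r σ'.r c ∅ ϖ

/-- Insertion at a marked point. -/
def StepBub (c : Fin m → ℂ) (Q : Motive X₀ P) : Prop := ∀ (A : Set L) (σ : State X₀ P A)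
  (i j : L), c ∈ σ.F.B → Q A σ → i ∈ A → j ∉ A → σ.s i c = σ.s j c →
  (∀ k, k ≠ i → k ≠ j → σ.s k c ≠ σ.s j c) →
  ∃ σ' : State X₀ P (insert j A), c ∈ σ'.F.B ∧ σ'.F.B ⊆ σ.F.B ∧ Q _ σ' ∧
    ∃ ϖ, Trans σ.F.S σ'.F.S σ.s σ'.s σ.r σ'.r c {σ.s j c} ϖ

/-- Insertion at a node. -/
def StepNode (Λ : Lab L m) (K : Mods X₀) (c : Fin m → ℂ) (Q : Motive X₀ P) : Prop :=
  ∀ (A : Set L) (σ : State X₀ P A) (j : L), c ∈ σ.F.B → Q A σ → j ∉ A →
  ∀ (i : K.ι) (U : Set σ.F.S.X) (u v : σ.F.S.X → ℂ) (t : (Fin m → ℂ) → ℂ),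
  IsModel σ.F.S.π σ.F.S.hol U u v t → K.Over i σ.r U u v → σ.s j c ∈ U → u (σ.s j c) = 0 → v (σ.s j c) = 0 →
  (∀ k ∈ A, σ.s k c ≠ σ.s j c) →
  (∀ k, k ≠ j → σ.s k c = σ.s j c → Λ.rk j < Λ.rk k ∧ AnalyticAt ℂ (Λ.μ j k) c ∧
    ∀ᶠ b in 𝓝 c, u (σ.s k b) = Λ.μ j k b * u (σ.s j b) ∧ v (σ.s j b) = Λ.μ j k b * v (σ.s k b)) →
  ∃ σ' : State X₀ P (insert j A), c ∈ σ'.F.B ∧ σ'.F.B ⊆ σ.F.B ∧ Q _ σ' ∧
    ∃ ϖ, Trans σ.F.S σ'.F.S σ.s σ'.s σ.r σ'.r c {σ.s j c} ϖ ∧
    ∃ (U' : Set σ'.F.S.X) (a : σ'.F.S.X → ℂ) (t' : (Fin m → ℂ) → ℂ),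
      IsModel σ'.F.S.π σ'.F.S.hol U' a (v ∘ ϖ) t' ∧ K.Over i σ'.r U' a (v ∘ ϖ) ∧
      σ'.s j c ∈ U' ∧ a (σ'.s j c) = 1 ∧
      ∀ k, k ≠ j → σ.s k c = σ.s j c → σ'.s k c ∈ U' ∧ ∀ᶠ b in 𝓝 c, a (σ'.s k b) = Λ.μ j k b

theorem good_add {A : Set L} {σ : State X₀ P A} {c : Fin m → ℂ} {j : L}
    {σ' : State X₀ P (insert j A)} {ϖ}
    (h : Trans σ.F.S σ'.F.S σ.s σ'.s σ.r σ'.r c ∅ ϖ)
    (hg : Good Λ K σ.F.S σ.s σ.r c) : Good Λ K σ'.F.S σ'.s σ'.r c := fun k =>
  h.good_off (notMem_empty _) (hg k)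

theorem good_bub {A : Set L} {σ : State X₀ P A} {c : Fin m → ℂ} {i j : L} (hi : i ∈ A)
    (hij : Λ.typ i ≠ Λ.typ j) (e : σ.s i c = σ.s j c)
    (hk : ∀ k, k ≠ i → k ≠ j → σ.s k c ≠ σ.s j c)
    {σ' : State X₀ P (insert j A)} {ϖ} (hc : c ∈ σ'.F.B)
    (h : Trans σ.F.S σ'.F.S σ.s σ'.s σ.r σ'.r c {σ.s j c} ϖ)
    (hg : Good Λ K σ.F.S σ.s σ.r c) : Good Λ K σ'.F.S σ'.s σ'.r c := by
  have hne : ∀ k ∈ insert j A, ∀ l ∈ insert j A, σ'.s k c = σ'.s l c → k = l := fun k hk l hl =>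
    σ'.inj k hk l hl c hc
  have key : ∀ a b : L, (a = i ∨ a = j) → b ≠ a → σ'.s b c = σ'.s a c → Λ.typ b ≠ Λ.typ a := by
    intro a b ha hb he
    have h1 : σ.s b c = σ.s a c := by rw [← h.at_c b, ← h.at_c a, he]
    have h2 : σ.s a c = σ.s j c := by
      rcases ha with rfl | rfl
      · exact e
      · rfl
    have h3 : b = i ∨ b = j := by
      by_contra h4
      push Not at h4
      exact hk b h4.1 h4.2 (h1.trans h2)
    rcases ha with rfl | rfl <;> rcases h3 with rfl | rfl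
    · exact absurd rfl hb
    · exact fun h5 => hij h5.symm
    · exact hij
    · exact absurd rfl hb
  intro k
  by_cases h1 : k = i ∨ k = j
  · left
    have h2 : k ∈ insert j A := by
      rcases h1 with rfl | rfl
      · exact mem_insert_of_mem _ hi
      · exact mem_insert _ _
    exact ⟨σ'.smooth k h2 c hc, fun b hb he => key k b h1 hb he⟩
  · push Not at h1
    exact h.good_off (fun h2 => hk k h1.1 h1.2 h2) (hg k)

theorem good_node {A : Set L} {σ : State X₀ P A} {c : Fin m → ℂ} {j : L}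
    {σ' : State X₀ P (insert j A)} (hc : c ∈ σ'.F.B) {ϖ}
    (h : Trans σ.F.S σ'.F.S σ.s σ'.s σ.r σ'.r c {σ.s j c} ϖ) (hg : Good Λ K σ.F.S σ.s σ.r c)
    (hok : Λ.OK {k | σ.s k c = σ.s j c} c) {v : σ.F.S.X → ℂ}
    (hv : v (σ.s j c) = 0)
    (hr : ∀ k l, σ.s k c = σ.s j c → σ.s l c = σ.s j c → Λ.rk k < Λ.rk l →
      ∀ᶠ b in 𝓝 c, v (σ.s k b) = Λ.μ k l b * v (σ.s l b))
    (hmin : ∀ k, k ≠ j → σ.s k c = σ.s j c → Λ.rk j < Λ.rk k)
    {U' : Set σ'.F.S.X} {a : σ'.F.S.X → ℂ} {t' : (Fin m → ℂ) → ℂ}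
    (hm : IsModel σ'.F.S.π σ'.F.S.hol U' a (v ∘ ϖ) t') {i : K.ι}
    (ho : K.Over i σ'.r U' a (v ∘ ϖ)) (hj : σ'.s j c ∈ U')
    (hj1 : a (σ'.s j c) = 1)
    (hk : ∀ k, k ≠ j → σ.s k c = σ.s j c → σ'.s k c ∈ U' ∧ ∀ᶠ b in 𝓝 c, a (σ'.s k b) = Λ.μ j k b) :
    Good Λ K σ'.F.S σ'.s σ'.r c := by
  intro k
  by_cases hkx : σ.s k c = σ.s j c
  swap
  · exact h.good_off (fun h2 => hkx h2) (hg k)
  -- the points on the new line
  have hU : ∀ l, σ.s l c = σ.s j c → σ'.s l c ∈ U' := by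
    intro l hl
    by_cases hlj : l = j
    · subst hlj; exact hj
    · exact (hk l hlj hl).1
  have hπ : ∀ l, σ'.F.S.π (σ'.s l c) = c := fun l => (σ'.sec l c hc).1
  have hvl : ∀ l, σ.s l c = σ.s j c → (v ∘ ϖ) (σ'.s l c) = 0 := by
    intro l hl
    simp only [Function.comp, h.at_c, hl, hv]
  have hinj : ∀ l l', σ.s l c = σ.s j c → σ.s l' c = σ.s j c →
      a (σ'.s l c) = a (σ'.s l' c) → σ'.s l c = σ'.s l' c := by
    intro l l' hl hl' he
    refine hm.inj (hU l hl) (hU l' hl') ?_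
    simp only [Emap, hπ, he, hvl l hl, hvl l' hl']
  have hdown : ∀ l, σ'.s l c = σ'.s k c → σ.s l c = σ.s j c := by
    intro l hl
    rw [← hkx, ← h.at_c l, ← h.at_c k, hl]
  by_cases hkj : k = j
  · subst hkj
    left
    refine ⟨σ'.smooth k (mem_insert _ _) c hc, fun l hl he => ?_⟩
    have h1 := hdown l he
    have h2 := (hk l hl h1).2.self_of_nhds
    rw [he, hj1] at h2
    have h3 := hok.one k rfl l h1 (hmin l hl h1) h2.symm
    exact h3.symm
  · obtain ⟨hkU, hka⟩ := hk k hkj hkx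
    have hak := hka.self_of_nhds
    by_cases h0 : a (σ'.s k c) = 0
    · right
      refine ⟨hok.mono fun l hl => hdown l hl, i, U', a, v ∘ ϖ, t', hkU, hm, ho, h0, hvl k hkx, ?_⟩
      have hlj : ∀ l, σ'.s l c = σ'.s k c → l ≠ j := by
        rintro l hl rfl
        rw [← hl, hj1] at h0
        exact one_ne_zero h0
      intro l n hl hn hln
      have hl' := hdown l hl
      have hn' := hdown n hn
      filter_upwards [(hk l (hlj l hl) hl').2, (hk n (hlj n hn) hn').2,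
        hok.coc j rfl l hl' n hn' (hmin l (hlj l hl) hl') hln, hr l n hl' hn' hln, h.sec l,
        h.sec n] with b h1 h2 h3 h4 h5 h6
      refine ⟨?_, ?_⟩
      · rw [h1, h2, h3, mul_comm]
      · simp only [Function.comp, h5, h6]
        exact h4
    · left
      refine ⟨⟨U', a, v ∘ ϖ, t', hkU, hm, Or.inl h0⟩, fun l hl he => ?_⟩
      have hl' := hdown l he
      by_cases hlj : l = j
      · subst hlj
        rw [← he, hj1] at hak
        exact hok.one l rfl k hkx (hmin k hkj hkx) hak.symm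
      · have h1 := (hk l hlj hl').2.self_of_nhds
        have h2 : Λ.μ j l c = Λ.μ j k c := by rw [← h1, ← hak, he]
        have h3 : Λ.μ j k c ≠ 0 := by rw [← hak]; exact h0
        rcases lt_trichotomy (Λ.rk l) (Λ.rk k) with h4 | h4 | h4
        · have h5 := (hok.coc j rfl l hl' k hkx (hmin l hlj hl') h4).self_of_nhds
          rw [h2] at h5
          have h6 : Λ.μ l k c = 1 := by
            have : Λ.μ j k c * (Λ.μ l k c - 1) = 0 := by linear_combination -h5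
            rcases mul_eq_zero.1 this with h7 | h7
            · exact absurd h7 h3
            · linear_combination h7
          exact hok.one l hl' k hkx h4 h6
        · exact absurd (hok.inj l hl' k hkx h4) hl
        · have h5 := (hok.coc j rfl k hkx l hl' (hmin k hkj hkx) h4).self_of_nhds
          rw [h2] at h5
          have h6 : Λ.μ k l c = 1 := by
            have : Λ.μ j k c * (Λ.μ k l c - 1) = 0 := by linear_combination -h5
            rcases mul_eq_zero.1 this with h7 | h7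
            · exact absurd h7 h3
            · linear_combination h7
          exact (hok.one k hkx l hl' h4 h6).symm

/-- **The insertion process.** -/
theorem exists_final [Finite L] {Q : Motive X₀ P} {c : Fin m → ℂ} (hadd : StepAdd c Q)
    (hbub : StepBub c Q) (hnode : StepNode Λ K c Q) : ∀ (n : ℕ) (A : Set L) (σ : State X₀ P A),
    Set.ncard Aᶜ = n → c ∈ σ.F.B → Q A σ → Good Λ K σ.F.S σ.s σ.r c →
    ∃ σ' : State X₀ P univ, c ∈ σ'.F.B ∧ σ'.F.B ⊆ σ.F.B ∧ Q _ σ' := by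
  intro n
  induction n with
  | zero =>
    intro A σ hn hc hQ hg
    have hA : A = univ := by
      rw [Set.ncard_eq_zero (Set.toFinite _), compl_empty_iff] at hn
      exact hn
    subst hA
    exact ⟨σ, hc, Subset.rfl, hQ⟩
  | succ n ih =>
    intro A σ hn hc hQ hg
    have hcard : ∀ j, j ∉ A → Set.ncard (insert j A)ᶜ = n := by
      intro j hj
      have h1 : (insert j A)ᶜ = Aᶜ \ {j} := by
        ext x
        simp only [mem_compl_iff, mem_insert_iff, Set.mem_sdiff, mem_singleton_iff]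
        tauto
      rw [h1, Set.ncard_sdiff_singleton_of_mem (show j ∈ Aᶜ from hj), hn]
      rfl
    have hnot : ∃ j, j ∉ A := by
      by_contra h
      push Not at h
      have : Aᶜ = ∅ := by
        rw [compl_empty_iff]
        exact eq_univ_of_forall h
      rw [this, Set.ncard_empty] at hn
      omega
    obtain ⟨j, hj⟩ := hnot
    rcases hg j with ⟨hs, ht⟩ | ⟨hok, ii, U, u, v, t, hx, hm, ho, hu, hv, hr⟩
    · by_cases hi : ∃ i ∈ A, σ.s i c = σ.s j c
      · obtain ⟨i, hi, e⟩ := hi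
        have hij : i ≠ j := fun h => hj (h ▸ hi)
        have htij := ht i hij e
        have hk : ∀ k, k ≠ i → k ≠ j → σ.s k c ≠ σ.s j c := by
          intro k hki hkj he
          have h1 := ht k hkj he
          -- the label `i` is at a smooth point, so all labels at its point have the other type
          rcases hg i with ⟨hs', ht'⟩ | ⟨-, -, U, u, v, t, hx, hm, -, hu, hv, -⟩
          · have h2 := ht' k hki (he.trans e.symm)
            have h3 : Λ.typ k = Λ.typ i ∨ Λ.typ k = Λ.typ j := by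
              revert h1 h2 htij
              cases Λ.typ k <;> cases Λ.typ i <;> cases Λ.typ j <;> simp
            rcases h3 with h3 | h3
            · exact h2 h3
            · exact h1 h3
          · exact (not_smooth (σ.smooth i hi c hc) hm hx hu hv).elim
        obtain ⟨σ', h1, h1', h2, ϖ, h3⟩ := hbub A σ i j hc hQ hi hj e hk
        obtain ⟨σ'', h4, h4', h5⟩ := ih _ σ' (hcard j hj) h1 h2
          (good_bub hi htij e hk h1 h3 hg)
        exact ⟨σ'', h4, h4'.trans h1', h5⟩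
      · push Not at hi
        obtain ⟨σ', h1, h1', h2, ϖ, h3⟩ := hadd A σ j hc hQ hj hs hi
        obtain ⟨σ'', h4, h4', h5⟩ := ih _ σ' (hcard j hj) h1 h2 (good_add h3 hg)
        exact ⟨σ'', h4, h4'.trans h1', h5⟩
    · -- the label of smallest rank at the node
      obtain ⟨j', hj', hmin'⟩ : ∃ j', σ.s j' c = σ.s j c ∧
          ∀ k, σ.s k c = σ.s j c → Λ.rk j' ≤ Λ.rk k := by
        have hfin : {k | σ.s k c = σ.s j c}.Finite := Set.toFinite _
        obtain ⟨j', h1, h2⟩ := Set.exists_min_image _ Λ.rk hfin ⟨j, rfl⟩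
        exact ⟨j', h1, fun k hk => h2 k hk⟩
      rw [← hj'] at hx hu hv
      have hA : ∀ k ∈ A, σ.s k c ≠ σ.s j' c := by
        intro k hk he
        refine not_smooth (σ.smooth k hk c hc) hm (he ▸ hx) ?_ ?_
        · rw [he]; exact hu
        · rw [he]; exact hv
      have hj'A : j' ∉ A := fun h => hA j' h rfl
      have hmin : ∀ k, k ≠ j' → σ.s k c = σ.s j' c → Λ.rk j' < Λ.rk k := by
        intro k hk he
        rcases (hmin' k (he.trans hj')).lt_or_eq with h | h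
        · exact h
        · exact absurd (hok.inj j' hj' k (he.trans hj') h).symm hk
      have hr' : ∀ k, k ≠ j' → σ.s k c = σ.s j' c → Λ.rk j' < Λ.rk k ∧
          AnalyticAt ℂ (Λ.μ j' k) c ∧ ∀ᶠ b in 𝓝 c,
            u (σ.s k b) = Λ.μ j' k b * u (σ.s j' b) ∧ v (σ.s j' b) = Λ.μ j' k b * v (σ.s k b) :=
        fun k hk he => ⟨hmin k hk he, hok.an j' hj' k (he.trans hj') (hmin k hk he),
          hr j' k hj' (he.trans hj') (hmin k hk he)⟩
      obtain ⟨σ', h1, h1', h2, ϖ, h3, U', a, t', h4, h4', h5, h6, h7⟩ :=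
        hnode A σ j' hc hQ hj'A ii U u v t hm ho hx hu hv hA hr'
      obtain ⟨σ'', h8, h8', h9⟩ := ih _ σ' (hcard j' hj'A) h1 h2
        (good_node h1 h3 hg (by rw [hj']; exact hok) hv
          (fun k l hk hl hkl => (hr k l (hk.trans hj') (hl.trans hj') hkl).mono fun _ h => h.2)
          hmin h4 h4' h5 h6 h7)
      exact ⟨σ'', h8, h8'.trans h1', h9⟩

end Vale.Agent.P273.H948

end
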